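import Crest.Agent.H2.QA.Defs

/-! Task `asym` of the S0539 plan. -/

set_option autoImplicit false

noncomputable section

namespace Crest.Agent.H2.QA

open Filter Asymptotics
open scoped Matrix.Norms.L2Operator

namespace AsymX

lemma hop_mono {𝔄 : Type} [CStarAlgebra 𝔄] {m : ℕ} {E : Finset (Fin m) → 𝔄} {X : 𝔄} {K K' d : ℝ}
    (h : Hop E X K d) (hd : 0 ≤ d) (hK : K ≤ K') : Hop E X K' d := by
  intro R τ b hR hτ hb
  refine h R τ b hR hτ (le_trans ?_ hb)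
  exact mul_le_mul_of_nonneg_right hK (by linarith)

lemma small_mono {N s : ℕ} {K K' : ℝ} (h : Small N s K) (hK : K ≤ K') : Small N s K' :=
  fun U hU a p T ha hp hs => hop_mono (h U hU a p T ha hp hs) (by positivity) hK

lemma big_mono {N s : ℕ} {K K' : ℝ} (h : Big N s K) (hK : K ≤ K') : Big N s K' :=
  fun U hU a p ha hp => hop_mono (h U hU a p ha hp) le_rfl hK

lemma const_le (C η : ℝ) (hη : 0 < η) : ∀ᶠ N : ℕ in atTop, C ≤ (N : ℝ) ^ η :=
  ((tendsto_rpow_atTop hη).comp tendsto_natCast_atTop_atTop).eventually_ge_atTop C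

lemma log_le (η : ℝ) (hη : 0 < η) :
    ∀ᶠ N : ℕ in atTop, Real.log (8 * N + 14) ≤ (N : ℝ) ^ η := by
  filter_upwards [const_le (4 / η) (η / 2) (by positivity), eventually_ge_atTop 10] with N h1 h2
  have hN : (10 : ℝ) ≤ N := by exact_mod_cast h2
  have h3 : Real.log (8 * N + 14) ≤ Real.log ((N : ℝ) ^ 2) :=
    Real.log_le_log (by positivity) (by nlinarith)
  rw [Real.log_pow] at h3
  have h4 : Real.log (N : ℝ) ≤ (N : ℝ) ^ (η / 2) / (η / 2) :=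
    Real.log_le_rpow_div (by positivity) (by positivity)
  have h5 : (N : ℝ) ^ η = (N : ℝ) ^ (η / 2) * (N : ℝ) ^ (η / 2) := by
    rw [← Real.rpow_add (by positivity)]; ring_nf
  have h6 : (0 : ℝ) ≤ (N : ℝ) ^ (η / 2) := by positivity
  have h7 : (N : ℝ) ^ (η / 2) / (η / 2) * 2 = 4 / η * (N : ℝ) ^ (η / 2) := by
    field_simp; ring
  push_cast at h3
  calc Real.log (8 * N + 14) ≤ (N : ℝ) ^ (η / 2) / (η / 2) * 2 := by linarith
    _ = 4 / η * (N : ℝ) ^ (η / 2) := h7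
    _ ≤ (N : ℝ) ^ (η / 2) * (N : ℝ) ^ (η / 2) := mul_le_mul_of_nonneg_right h1 h6
    _ = (N : ℝ) ^ η := h5.symm

lemma small_big (hs : ∀ (N s j : ℕ) (K l μ : ℝ), 1 ≤ K → 1 ≤ μ → 8 * N + 14 ≤ Real.exp l →
      (N : ℝ) ≤ μ ^ (2 * j + 1) → Small N s K → Big N s ((400 * K * l ^ 2) ^ (5 * j) * μ))
    (s : ℕ) (h : ∀ δ : ℝ, 0 < δ → ∀ᶠ N : ℕ in atTop, Small N s ((N : ℝ) ^ δ)) (δ : ℝ) (hδ : 0 < δ) :
    ∀ᶠ N : ℕ in atTop, Big N s ((N : ℝ) ^ δ) := by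
  obtain ⟨j, hj⟩ := exists_nat_ge (1 / δ)
  have hj1 : (0 : ℝ) < 2 * j + 1 := by positivity
  have hjδ : 1 / (2 * (j : ℝ) + 1) ≤ δ / 2 := by
    rw [div_le_div_iff₀ hj1 (by norm_num)]
    rw [div_le_iff₀ hδ] at hj
    nlinarith
  set η : ℝ := δ / (40 * (j + 1)) with hη
  have hη0 : 0 < η := by positivity
  filter_upwards [h η hη0, const_le 400 η hη0, log_le η hη0, eventually_ge_atTop 1] with
    N h1 h2 h3 h4
  have hN : (1 : ℝ) ≤ N := by exact_mod_cast h4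
  have hN0 : (0 : ℝ) < N := by positivity
  have hl0 : 0 ≤ Real.log (8 * N + 14) := Real.log_nonneg (by linarith)
  have hK : 1 ≤ (N : ℝ) ^ η := Real.one_le_rpow hN hη0.le
  have hμ : 1 ≤ (N : ℝ) ^ (1 / (2 * (j : ℝ) + 1)) := Real.one_le_rpow hN (by positivity)
  have hμ' : (N : ℝ) ≤ ((N : ℝ) ^ (1 / (2 * (j : ℝ) + 1))) ^ (2 * j + 1) := by
    rw [← Real.rpow_natCast, ← Real.rpow_mul hN0.le]
    have : 1 / (2 * (j : ℝ) + 1) * ((2 * j + 1 : ℕ) : ℝ) = 1 := by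
      push_cast; field_simp
    rw [this, Real.rpow_one]
  have hb := hs N s j _ (Real.log (8 * N + 14)) _ hK hμ
    (by rw [Real.exp_log (by positivity)]) hμ' h1
  refine big_mono hb ?_
  have e1 : 400 * (N : ℝ) ^ η * Real.log (8 * N + 14) ^ 2 ≤ ((N : ℝ) ^ η) ^ 4 := by
    have : Real.log (8 * N + 14) ^ 2 ≤ ((N : ℝ) ^ η) ^ 2 := pow_le_pow_left₀ hl0 h3 2
    calc 400 * (N : ℝ) ^ η * Real.log (8 * N + 14) ^ 2
        ≤ (N : ℝ) ^ η * (N : ℝ) ^ η * ((N : ℝ) ^ η) ^ 2 := by gcongr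
      _ = ((N : ℝ) ^ η) ^ 4 := by ring
  have e2 : (400 * (N : ℝ) ^ η * Real.log (8 * N + 14) ^ 2) ^ (5 * j) ≤ (N : ℝ) ^ (δ / 2) := by
    calc (400 * (N : ℝ) ^ η * Real.log (8 * N + 14) ^ 2) ^ (5 * j)
        ≤ (((N : ℝ) ^ η) ^ 4) ^ (5 * j) := pow_le_pow_left₀ (by positivity) e1 _
      _ = (N : ℝ) ^ (η * ((4 * (5 * j) : ℕ) : ℝ)) := by
        rw [← pow_mul, ← Real.rpow_natCast, ← Real.rpow_mul hN0.le]
      _ ≤ (N : ℝ) ^ (δ / 2) := by
        apply Real.rpow_le_rpow_of_exponent_le hN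
        push_cast
        rw [hη, div_mul_eq_mul_div, div_le_div_iff₀ (by positivity) (by norm_num)]
        nlinarith
  have e3 : (N : ℝ) ^ (1 / (2 * (j : ℝ) + 1)) ≤ (N : ℝ) ^ (δ / 2) :=
    Real.rpow_le_rpow_of_exponent_le hN hjδ
  calc (400 * (N : ℝ) ^ η * Real.log (8 * N + 14) ^ 2) ^ (5 * j) *
        (N : ℝ) ^ (1 / (2 * (j : ℝ) + 1)) ≤ (N : ℝ) ^ (δ / 2) * (N : ℝ) ^ (δ / 2) := by gcongr
    _ = (N : ℝ) ^ δ := by rw [← Real.rpow_add hN0]; ring_nf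

end AsymX

open AsymX

theorem t_asym : T_asym := by
  intro hz hsucc hs
  have key : ∀ s : ℕ, ∀ δ : ℝ, 0 < δ → ∀ᶠ N : ℕ in atTop, Small N s ((N : ℝ) ^ δ) := by
    intro s
    induction s with
    | zero =>
      intro δ hδ
      filter_upwards [const_le 1 δ hδ] with N h1
      exact small_mono (hz N) h1
    | succ s ih =>
      intro δ hδ
      filter_upwards [small_big hs s ih (δ / 4) (by positivity),
        const_le 15 (δ / 4) (by positivity), eventually_ge_atTop 1] with N h1 h2 h3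
      have hN : (1 : ℝ) ≤ N := by exact_mod_cast h3
      have hN0 : (0 : ℝ) < N := by positivity
      refine small_mono (hsucc N s _ (by linarith) h1) ?_
      calc 15 * ((N : ℝ) ^ (δ / 4)) ^ 3 ≤ (N : ℝ) ^ (δ / 4) * ((N : ℝ) ^ (δ / 4)) ^ 3 := by gcongr
        _ = ((N : ℝ) ^ (δ / 4)) ^ 4 := by ring
        _ = (N : ℝ) ^ δ := by
          rw [← Real.rpow_natCast, ← Real.rpow_mul hN0.le]
          congr 1
          push_cast
          ring
  intro s δ hδ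
  exact eventually_atTop.1 (small_big hs s (key s) δ hδ)

end Crest.Agent.H2.QA
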