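import Crest.Agent.H2.QA.Defs

/-! Basic lemmas for S0539. -/

set_option autoImplicit false

noncomputable section

namespace Crest.Agent.H2.QA

open Finset
open scoped Matrix.Norms.L2Operator

section ld

variable {m : ℕ} {D D' : ℕ} {M M' : ℝ} {F G : Finset (Fin m) → ℝ}

theorem LD.of_family {ι : Type} (s : Finset ι) (t : ι → Finset (Fin m)) (c : ι → ℝ)
    (ht : ∀ i ∈ s, c i ≠ 0 → (t i).card ≤ D) (hc : ∑ i ∈ s, |c i| ≤ M)
    (hF : ∀ S, F S = ∑ i ∈ s, if t i ⊆ S then c i else 0) : LD D M F := by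
  classical
  refine ⟨fun T => ∑ i ∈ s with t i = T, c i, fun T hT => ?_, ?_, fun S => ?_⟩
  · obtain ⟨i, hi, h0⟩ := exists_ne_zero_of_sum_ne_zero hT
    rw [← (mem_filter.1 hi).2]
    exact ht i (mem_filter.1 hi).1 h0
  · refine le_trans ?_ hc
    rw [← sum_fiberwise s t]
    exact sum_le_sum fun T _ => abs_sum_le_sum_abs _ _
  · rw [hF, ← sum_fiberwise s t]
    refine sum_congr rfl fun T _ => ?_
    split_ifs with h
    · exact sum_congr rfl fun i hi => by rw [(mem_filter.1 hi).2, if_pos h]
    · exact sum_eq_zero fun i hi => by rw [(mem_filter.1 hi).2, if_neg h]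

theorem LD.nonneg (h : LD D M F) : 0 ≤ M := by
  obtain ⟨c, -, h2, -⟩ := h
  exact (sum_nonneg fun _ _ => abs_nonneg _).trans h2

theorem LD.mono (h : LD D M F) (hD : D ≤ D') (hM : M ≤ M') : LD D' M' F := by
  obtain ⟨c, h1, h2, h3⟩ := h
  exact ⟨c, fun T hT => (h1 T hT).trans hD, h2.trans hM, h3⟩

theorem LD.congr (h : LD D M F) (e : ∀ S, F S = G S) : LD D M G := by
  rwa [show G = F from funext fun S => (e S).symm]

theorem LD.abs_le (h : LD D M F) (S : Finset (Fin m)) : |F S| ≤ M := by
  obtain ⟨c, -, h2, h3⟩ := h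
  rw [h3]
  refine (abs_sum_le_sum_abs _ _).trans (le_trans (sum_le_sum fun T _ => ?_) h2)
  split_ifs <;> simp

theorem LD.const (c : ℝ) : LD 0 |c| fun _ : Finset (Fin m) => c :=
  LD.of_family ({()} : Finset Unit) (fun _ => ∅) (fun _ => c) (by simp) (by simp) (by simp)

theorem LD.card : LD 1 m fun S : Finset (Fin m) => (S.card : ℝ) :=
  LD.of_family univ (fun i => {i}) (fun _ => 1) (by simp) (by simp) (by simp)

theorem LD.add (hF : LD D M F) (hG : LD D M' G) : LD D (M + M') fun S => F S + G S := by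
  obtain ⟨c, h1, h2, h3⟩ := hF
  obtain ⟨c', h1', h2', h3'⟩ := hG
  refine ⟨fun T => c T + c' T, fun T hT => ?_, ?_, fun S => ?_⟩
  · by_cases h : c T = 0
    · exact h1' T (by simpa [h] using hT)
    · exact h1 T h
  · refine le_trans (sum_le_sum fun T _ => abs_add_le _ _) ?_
    rw [sum_add_distrib]; linarith
  · beta_reduce
    rw [h3, h3', ← sum_add_distrib]
    refine sum_congr rfl fun T _ => ?_
    split_ifs <;> simp

theorem LD.smul (hF : LD D M F) (a : ℝ) : LD D (|a| * M) fun S => a * F S := by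
  obtain ⟨c, h1, h2, h3⟩ := hF
  refine ⟨fun T => a * c T, fun T hT => h1 T (right_ne_zero_of_mul hT), ?_, fun S => ?_⟩
  · simp only [abs_mul, ← mul_sum]
    exact mul_le_mul_of_nonneg_left h2 (abs_nonneg a)
  · beta_reduce
    rw [h3, mul_sum]
    refine sum_congr rfl fun T _ => ?_
    split_ifs <;> simp

theorem LD.sub (hF : LD D M F) (hG : LD D M' G) : LD D (M + M') fun S => F S - G S :=
  ((hF.add (hG.smul (-1))).mono le_rfl (by simp)).congr fun S => by ring

theorem LD.mul (hF : LD D M F) (hG : LD D' M' G) : LD (D + D') (M * M') fun S => F S * G S := by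
  have hM := hG.nonneg
  obtain ⟨c, h1, h2, h3⟩ := hF
  obtain ⟨c', h1', h2', h3'⟩ := hG
  refine LD.of_family (univ ×ˢ univ) (fun p => p.1 ∪ p.2) (fun p => c p.1 * c' p.2)
    (fun p _ hp => (card_union_le _ _).trans
      (add_le_add (h1 _ (left_ne_zero_of_mul hp)) (h1' _ (right_ne_zero_of_mul hp)))) ?_
    fun S => ?_
  · simp only [sum_product, abs_mul, ← sum_mul_sum]
    exact mul_le_mul h2 h2' (sum_nonneg fun _ _ => abs_nonneg _)
      ((sum_nonneg fun _ _ => abs_nonneg _).trans h2)
  · rw [h3, h3', sum_mul_sum, sum_product]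
    refine sum_congr rfl fun T _ => sum_congr rfl fun T' _ => ?_
    by_cases hT : T ⊆ S <;> by_cases hT' : T' ⊆ S <;> simp [hT, hT', union_subset_iff]

theorem LD.pow (hF : LD D M F) (n : ℕ) : LD (n * D) (M ^ n) fun S => F S ^ n := by
  induction n with
  | zero => simpa using LD.const (m := m) 1
  | succ n ih =>
    rw [add_mul, one_mul, pow_succ]
    exact (ih.mul hF).congr fun S => (pow_succ _ _).symm

theorem LD.prod {ι : Type} (s : Finset ι) {H : ι → Finset (Fin m) → ℝ}
    (h : ∀ i ∈ s, LD D M (H i)) : LD (s.card * D) (M ^ s.card) fun S => ∏ i ∈ s, H i S := by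
  classical
  induction s using Finset.induction_on with
  | empty => simpa using LD.const (m := m) 1
  | insert a s ha ih =>
    refine (((ih fun i hi => h i (mem_insert_of_mem hi)).mul (h a (mem_insert_self _ _))).mono
      ?_ ?_).congr fun S => ?_
    · rw [card_insert_of_notMem ha, add_mul, one_mul]
    · rw [card_insert_of_notMem ha, pow_succ]
    · rw [prod_insert ha, mul_comm]

/-- affine functions of the cardinality -/
theorem PD.affine (m : ℕ) (a c : ℝ) : PD m 1 (|a| + |c| * m) fun x => a + c * x :=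
  ((LD.const a).mono zero_le_one le_rfl).add (LD.card.smul c)

end ld

section frames

variable {𝔄 : Type} [CStarAlgebra 𝔄] {m : ℕ} {E : Finset (Fin m) → 𝔄}
  {f g : Finset (Fin m) → ℝ}

theorem fn_congr (h : ∀ S, f S = g S) : fn E f = fn E g := by rw [funext h]

theorem fn_add : fn E (fun S => f S + g S) = fn E f + fn E g := by
  simp [fn, add_smul, sum_add_distrib]

theorem fn_sub : fn E (fun S => f S - g S) = fn E f - fn E g := by
  simp [fn, sub_smul, sum_sub_distrib]

theorem fn_smul (a : ℝ) : fn E (fun S => a * f S) = (a : ℂ) • fn E f := by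
  simp only [fn, smul_sum, smul_smul, Complex.ofReal_mul]

theorem fn_zero : fn E (fun _ => 0) = 0 := by simp [fn]

theorem fn_sum {ι : Type} (s : Finset ι) (H : ι → Finset (Fin m) → ℝ) :
    fn E (fun S => ∑ i ∈ s, H i S) = ∑ i ∈ s, fn E (H i) := by
  simp only [fn, Complex.ofReal_sum, sum_smul]
  exact sum_comm

theorem fn_one (hE : IsFrame E) : fn E (fun _ => 1) = 1 := by simp [fn, hE.sum]

theorem fn_mul (hE : IsFrame E) : fn E f * fn E g = fn E fun S => f S * g S := by
  simp only [fn, sum_mul_sum]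
  refine sum_congr rfl fun S _ => ?_
  rw [sum_eq_single S (fun S' _ h => by
    rw [smul_mul_smul_comm, hE.orth S S' h.symm, smul_zero]) (by simp),
    smul_mul_smul_comm, (hE.proj S).isIdempotentElem.eq, Complex.ofReal_mul]

theorem fn_comm (hE : IsFrame E) : fn E f * fn E g = fn E g * fn E f := by
  rw [fn_mul hE, fn_mul hE]; exact fn_congr fun S => mul_comm _ _

theorem star_fn (hE : IsFrame E) : star (fn E f) = fn E f := by
  simp only [fn, star_sum, star_smul, (hE.proj _).isSelfAdjoint.star_eq, RCLike.star_def,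
    Complex.conj_ofReal]

theorem fn_single (S₀ : Finset (Fin m)) : fn E (fun S => if S = S₀ then 1 else 0) = E S₀ := by
  rw [fn, sum_eq_single S₀ (fun S _ h => by simp [h]) (by simp)]
  simp

theorem fn_proj (hE : IsFrame E) (p : Finset (Fin m) → Prop) [DecidablePred p] :
    IsStarProjection (fn E fun S => if p S then 1 else 0) :=
  ⟨by rw [IsIdempotentElem, fn_mul hE]; exact fn_congr fun S => by split_ifs <;> simp,
    star_fn hE⟩

theorem norm_fn_le (hE : IsFrame E) {c : ℝ} (hc : 0 ≤ c) (h : ∀ S, |f S| ≤ c) :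
    ‖fn E f‖ ≤ c := by
  let _ := CStarAlgebra.spectralOrder 𝔄
  have _ := CStarAlgebra.spectralOrderedRing 𝔄
  have h1 : star (fn E f) * fn E f ≤ algebraMap ℝ 𝔄 (c ^ 2) := by
    have e : algebraMap ℝ 𝔄 (c ^ 2) - star (fn E f) * fn E f =
        star (fn E fun S => √(c ^ 2 - f S * f S)) * fn E fun S => √(c ^ 2 - f S * f S) := by
      rw [star_fn hE, star_fn hE, fn_mul hE, fn_mul hE, Algebra.algebraMap_eq_smul_one,
        ← fn_one hE, ← Complex.coe_smul, ← fn_smul, ← fn_sub]
      refine fn_congr fun S => ?_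
      rw [Real.mul_self_sqrt, mul_one]
      nlinarith [abs_mul_abs_self (f S), h S, abs_nonneg (f S)]
    rw [← sub_nonneg, e]
    exact star_mul_self_nonneg _
  have h2 := (CStarAlgebra.norm_le_iff_le_algebraMap _ (sq_nonneg c)
    (star_mul_self_nonneg (fn E f))).2 h1
  rw [CStarRing.norm_star_mul_self, ← sq] at h2
  exact (pow_le_pow_iff_left₀ (norm_nonneg _) hc two_ne_zero).1 h2

theorem hi_proj (hE : IsFrame E) (b : ℝ) : IsStarProjection (hi E b) := fn_proj hE _
theorem lo_proj (hE : IsFrame E) (b : ℝ) : IsStarProjection (lo E b) := fn_proj hE _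
theorem up_proj (hE : IsFrame E) (T : Finset (Fin m)) : IsStarProjection (up E T) := fn_proj hE _

theorem hi_add_lo (hE : IsFrame E) (b : ℝ) : hi E b + lo E b = 1 := by
  rw [hi, lo, ← fn_add, ← fn_one hE]
  refine fn_congr fun S => ?_
  by_cases h : b < S.card
  · simp [h, not_le.2 h]
  · simp [h, not_lt.1 h]

theorem hi_eq_zero {b : ℝ} (h : (m : ℝ) ≤ b) : hi E b = 0 := by
  rw [hi, ← fn_zero (E := E)]
  refine fn_congr fun S => if_neg (not_lt.2 (le_trans ?_ h))
  exact_mod_cast (card_le_univ S).trans_eq (by simp)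

theorem lo_zero : lo E 0 = E ∅ := by
  rw [lo, ← fn_single (E := E) ∅]
  refine fn_congr fun S => ?_
  have : ((S.card : ℝ) ≤ 0) ↔ S = ∅ := by
    rw [← card_eq_zero, Nat.cast_nonpos]
  simp only [this]

/-- a low-degree function is a combination of the `up E T` -/
theorem LD.fn_eq {D : ℕ} {M : ℝ} (h : LD D M f) : ∃ c : Finset (Fin m) → ℝ,
    (∀ T, c T ≠ 0 → T.card ≤ D) ∧ ∑ T, |c T| ≤ M ∧
      ∀ E : Finset (Fin m) → 𝔄, fn E f = ∑ T, (c T : ℂ) • up E T := by
  obtain ⟨c, h1, h2, h3⟩ := h
  refine ⟨c, h1, h2, fun E => ?_⟩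
  rw [fn_congr h3, fn_sum]
  refine sum_congr rfl fun T _ => ?_
  rw [up, ← fn_smul]
  exact fn_congr fun S => by split_ifs <;> simp

theorem Hop.mono {X : 𝔄} {K K' d d' : ℝ} (h : Hop E X K d) (hK0 : 0 ≤ K) (hK : K ≤ K')
    (hd0 : 0 ≤ d) (hd : d ≤ d') : Hop E X K' d' := fun R τ b hR hτ hb =>
  h R τ b hR hτ (le_trans (mul_le_mul hK (by linarith) (by linarith) (hK0.trans hK)) hb)

theorem IsFrame.conj (hE : IsFrame E) {U : 𝔄} (hU : U ∈ unitary 𝔄) :
    IsFrame fun S => star U * E S * U where
  proj S := ⟨by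
    rw [IsIdempotentElem]
    calc star U * E S * U * (star U * E S * U) = star U * (E S * (U * star U) * E S) * U := by
          noncomm_ring
      _ = _ := by rw [hU.2, mul_one, (hE.proj S).isIdempotentElem.eq], by
    rw [IsSelfAdjoint, star_mul, star_mul, star_star, (hE.proj S).isSelfAdjoint.star_eq,
      mul_assoc]⟩
  orth S S' h := by
    calc star U * E S * U * (star U * E S' * U) = star U * (E S * (U * star U) * E S') * U := by
          noncomm_ring
      _ = 0 := by rw [hU.2, mul_one, hE.orth S S' h, mul_zero, zero_mul]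
  sum := by rw [← sum_mul, ← mul_sum, hE.sum, mul_one, hU.1]

theorem fn_conj (U : 𝔄) : fn (fun S => star U * E S * U) f = star U * fn E f * U := by
  simp only [fn, mul_sum, sum_mul, mul_smul_comm, smul_mul_assoc]

end frames

section concrete

variable {N : ℕ} {a b : Fin N → Matrix Bool Bool ℂ}

theorem prodOp_apply (x y : Fin N → Bool) : prodOp a x y = ∏ i, a i (x i) (y i) := rfl

theorem prodOp_mul : prodOp a * prodOp b = prodOp fun i => a i * b i := by
  ext x y
  simp only [Matrix.mul_apply, prodOp_apply, ← prod_mul_distrib]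
  rw [prod_univ_sum, Fintype.piFinset_univ]

theorem star_prodOp : star (prodOp a) = prodOp fun i => star (a i) := by
  ext x y
  simp [Matrix.star_apply, prodOp_apply]

theorem prodOp_one : prodOp (fun _ : Fin N => 1) = 1 := by
  ext x y
  rw [prodOp_apply, Matrix.one_apply]
  split_ifs with h
  · subst h; simp
  · obtain ⟨i, hi⟩ := Function.ne_iff.1 h
    exact prod_eq_zero (mem_univ i) (Matrix.one_apply_ne hi)

theorem prodOp_eq_zero (i : Fin N) (h : a i = 0) : prodOp a = 0 := by
  ext x y
  exact prod_eq_zero (mem_univ i) (by rw [h]; rfl)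

theorem prodOp_congr (h : ∀ i, a i = b i) : prodOp a = prodOp b := by rw [funext h]

theorem prodOp_comm (h : ∀ i, a i * b i = b i * a i) :
    prodOp a * prodOp b = prodOp b * prodOp a := by
  rw [prodOp_mul, prodOp_mul]; exact prodOp_congr h

theorem IsPF.proj (h : IsPF a) : IsStarProjection (prodOp a) :=
  ⟨by rw [IsIdempotentElem, prodOp_mul]; exact prodOp_congr fun i => (h i).isIdempotentElem.eq,
    by rw [IsSelfAdjoint, star_prodOp]; exact prodOp_congr fun i => (h i).isSelfAdjoint.star_eq⟩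

theorem prodOp_add_eq_sum : prodOp (fun i => a i + b i) =
    ∑ S : Finset (Fin N), prodOp fun i => if i ∈ S then a i else b i := by
  ext x y
  simp only [prodOp_apply, Matrix.add_apply, Matrix.sum_apply]
  rw [prod_add, powerset_univ]
  refine sum_congr rfl fun S _ => ?_
  rw [← prod_mul_prod_compl S, compl_eq_univ_sdiff]
  congr 1
  · exact prod_congr rfl fun i hi => by rw [if_pos hi]
  · exact prod_congr rfl fun i hi => by rw [if_neg (mem_sdiff.1 hi).2]

theorem IsPF.isFrame (h : IsPF a) : IsFrame (frame a) where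
  proj S := IsPF.proj fun i => by
    split_ifs
    exacts [h i, (h i).one_sub]
  orth S S' hS := by
    rw [frame, frame, prodOp_mul]
    obtain ⟨i, hi⟩ : ∃ i, ¬(i ∈ S ↔ i ∈ S') := by
      by_contra hc
      push Not at hc
      exact hS (Finset.ext hc)
    refine prodOp_eq_zero i ?_
    by_cases h1 : i ∈ S <;> by_cases h2 : i ∈ S' <;>
      simp_all [mul_sub, sub_mul, (h i).isIdempotentElem.eq]
  sum := by
    rw [← prodOp_one, ← prodOp_congr (a := fun i => a i + (1 - a i)) fun i => by simp,
      prodOp_add_eq_sum]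
    rfl

theorem up_frame (T : Finset (Fin N)) :
    up (frame a) T = prodOp fun i => if i ∈ T then a i else 1 := by
  rw [← prodOp_congr (a := fun i => a i + (if i ∈ T then 0 else 1 - a i))
    fun i => by split_ifs <;> simp, prodOp_add_eq_sum, up, fn]
  refine sum_congr rfl fun S _ => ?_
  by_cases h : T ⊆ S
  · simp only [if_pos h, Complex.ofReal_one, one_smul, frame]
    refine prodOp_congr fun i => ?_
    by_cases hi : i ∈ S
    · simp [hi]
    · simp [hi, show i ∉ T from fun h' => hi (h h')]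
  · simp only [if_neg h, Complex.ofReal_zero, zero_smul]
    obtain ⟨i, h1, h2⟩ := not_subset.1 h
    exact (prodOp_eq_zero i (by simp [h1, h2])).symm

theorem frame_empty : frame a ∅ = prodOp fun i => 1 - a i := by
  simp [frame]

end concrete

end Crest.Agent.H2.QA
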