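import Crest.Agent.H2.QA.Basic

/-! Task `boot` of the S0539 plan. -/

set_option autoImplicit false

noncomputable section

namespace Crest.Agent.H2.QA

theorem t_boot : T_boot := by
  intro hS 𝔄 _ m E F K l μ j hE hF hK hμ hl hm h1 h2
  have hl1 : 1 ≤ l := by
    by_contra hc
    push Not at hc
    have h3 : Real.exp l ≤ Real.exp 1 := Real.exp_le_exp.2 hc.le
    have h4 := Real.exp_one_lt_d9
    have h5 : (0 : ℝ) ≤ m := Nat.cast_nonneg m
    linarith
  have hX : 1 ≤ 400 * K * l ^ 2 := by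
    have : 1 ≤ l ^ 2 := one_le_pow₀ hl1
    nlinarith
  have hP : ∀ i : ℕ, Prof E (F ∅) i ((400 * K * l ^ 2) ^ (5 * i)) := by
    intro i
    induction i with
    | zero =>
      intro R A b _ _ _ _ h
      have hb : (m : ℝ) ≤ b := by simpa using h
      rw [hi_eq_zero hb, zero_mul, zero_mul, norm_zero]
      exact (Real.exp_pos _).le
    | succ i ih =>
      have := hS 𝔄 m E F K l _ i hE hF hK (one_le_pow₀ hX) hl h1 h2 ih
      rwa [← pow_add, show 5 + 5 * i = 5 * (i + 1) by ring] at this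
  intro R τ b hR hτ hb
  obtain ⟨Y, hY⟩ : ∃ Y, Y = (400 * K * l ^ 2) ^ (5 * j) := ⟨_, rfl⟩
  have hP' := hP j
  rw [← hY] at hb hP'
  have hY1 : 1 ≤ Y := hY ▸ one_le_pow₀ hX
  have hYμ : Y ≤ Y * μ := le_mul_of_one_le_right (by linarith) hμ
  have hbτ : Y * μ * τ ≤ b := le_trans (mul_le_mul_of_nonneg_left (by linarith) (by linarith)) hb
  refine hP' R τ b hR hτ ?_ ?_ ?_
  · exact le_trans (mul_le_mul hYμ (by linarith) hR (by linarith)) hb
  · exact le_trans (mul_le_mul_of_nonneg_right hYμ (by linarith)) hbτ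
  · refine le_trans ?_ (pow_le_pow_left₀ (by positivity) hbτ _)
    rw [mul_pow, mul_pow, mul_right_comm _ (μ ^ _)]
    refine mul_le_mul (mul_le_mul_of_nonneg_left ?_ (by positivity)) hm (Nat.cast_nonneg m)
      (by positivity)
    exact pow_le_pow_right₀ hτ (by omega)

end Crest.Agent.H2.QA
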