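import Crest.Agent.H2.QA.Basic

/-! Task `circ` of the S0539 plan: a circuit acts by a product of layers. -/

set_option autoImplicit false

noncomputable section

namespace Crest.Agent.H2.QA

open Crest.Quantum.Circuit

namespace CircA

variable {N : ℕ}

theorem foldl_mulVec {γ : Type} (F : γ → QState N → QState N) (M : γ → Mat N) (L : List γ)
    (h : ∀ g ∈ L, ∀ ψ, F g ψ = (M g).mulVec ψ) (ψ : QState N) :
    L.foldl (fun φ g => F g φ) ψ = ((L.map M).reverse.prod).mulVec ψ := by
  induction L generalizing ψ with
  | nil => simp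
  | cons g L ih =>
    rw [List.foldl_cons, ih fun g' hg' => h g' (List.mem_cons_of_mem _ hg'),
      h g List.mem_cons_self, Matrix.mulVec_mulVec]
    simp

end CircA

open CircA in
theorem t_circ : T_circ := by
  intro hl hg N C hC
  have h1 : ∀ G ∈ (C.map fun L => (L.map gateMat).reverse.prod).reverse, IsLayer G := by
    intro G hG
    obtain ⟨L, hL, rfl⟩ := List.mem_map.1 (List.mem_reverse.1 hG)
    exact hl N L (hC L hL)
  refine ⟨_, ⟨(C.map fun L => (L.map gateMat).reverse.prod).reverse, by simp, h1, rfl⟩,
    Submonoid.list_prod_mem _ fun G hG => (h1 G hG).1, fun ψ => ?_⟩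
  exact foldl_mulVec applyLayer _ C (fun L hL φ => foldl_mulVec Gate.apply gateMat L
    (fun g hg' => hg N g ((hC L hL).1 g hg')) φ) ψ

end Crest.Agent.H2.QA
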