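import Crest.Prelude.Def_QCircuit

/-! Statements for S0539 (constant-depth circuits do not compute parity).
Proofs in words: `Plan.lean`; basic lemmas: `Basic.lean`. -/

set_option autoImplicit false

noncomputable section

namespace Crest.Agent.H2.QA

open Crest.Quantum.Circuit
open scoped Matrix.Norms.L2Operator

/-- functions of a subset of degree `≤ D` and coefficient mass `≤ M` -/
def LD {m : ℕ} (D : ℕ) (M : ℝ) (F : Finset (Fin m) → ℝ) : Prop :=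
  ∃ c : Finset (Fin m) → ℝ, (∀ T, c T ≠ 0 → T.card ≤ D) ∧ ∑ T, |c T| ≤ M ∧
    ∀ S, F S = ∑ T, if T ⊆ S then c T else 0

/-- the same for functions of the cardinality -/
def PD (m D : ℕ) (M : ℝ) (f : ℝ → ℝ) : Prop := LD D M fun S : Finset (Fin m) => f S.card

section frames

variable {𝔄 : Type} [CStarAlgebra 𝔄] {m : ℕ}

/-- resolutions of the identity indexed by subsets -/
structure IsFrame (E : Finset (Fin m) → 𝔄) : Prop where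
  proj : ∀ S, IsStarProjection (E S)
  orth : ∀ S S', S ≠ S' → E S * E S' = 0
  sum : ∑ S, E S = 1

/-- functional calculus of a frame -/
def fn (E : Finset (Fin m) → 𝔄) (f : Finset (Fin m) → ℝ) : 𝔄 := ∑ S, (f S : ℂ) • E S

def hi (E : Finset (Fin m) → 𝔄) (b : ℝ) : 𝔄 := fn E fun S => if b < S.card then 1 else 0

def lo (E : Finset (Fin m) → 𝔄) (R : ℝ) : 𝔄 := fn E fun S => if (S.card : ℝ) ≤ R then 1 else 0

def up (E : Finset (Fin m) → 𝔄) (T : Finset (Fin m)) : 𝔄 := fn E fun S => if T ⊆ S then 1 else 0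

/-- `X` does not raise the number of excitations much -/
def Hop (E : Finset (Fin m) → 𝔄) (X : 𝔄) (K d : ℝ) : Prop := ∀ R τ b : ℝ, 0 ≤ R → 1 ≤ τ →
  K * (R + τ + d) ≤ b → ‖hi E b * X * lo E R‖ ≤ Real.exp (-τ)

/-- the `j`-th profile -/
def Prof (E : Finset (Fin m) → 𝔄) (P : 𝔄) (j : ℕ) (Y : ℝ) : Prop := ∀ R A b : ℝ, 0 ≤ R → 1 ≤ A →
  Y * R ≤ b → Y * A ≤ b → Y ^ (2 * j + 1) * A ^ (2 * j) * m ≤ b ^ (2 * j + 1) →
  ‖hi E b * P * lo E R‖ ≤ Real.exp (-A)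

end frames

abbrev Mat (N : ℕ) : Type := Matrix (Fin N → Bool) (Fin N → Bool) ℂ

section concrete

variable {N : ℕ}

/-- tensor product of one-qubit operators -/
def prodOp (a : Fin N → Matrix Bool Bool ℂ) : Mat N := Matrix.of fun x y => ∏ i, a i (x i) (y i)

/-- families of one-qubit projections -/
def IsPF (p : Fin N → Matrix Bool Bool ℂ) : Prop := ∀ i, IsStarProjection (p i)

def frame (h : Fin N → Matrix Bool Bool ℂ) (S : Finset (Fin N)) : Mat N :=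
  prodOp fun i => if i ∈ S then h i else 1 - h i

def Supp (p : Fin N → Matrix Bool Bool ℂ) (T : Finset (Fin N)) : Prop := ∀ i, i ∉ T → p i = 1

/-- small product projections pull back to few triple products of product projections -/
def Expands (G : Mat N) : Prop := ∀ (p : Fin N → Matrix Bool Bool ℂ) (T : Finset (Fin N)),
  IsPF p → Supp p T → ∃ (ι : Type) (_ : Fintype ι) (c : ι → ℝ)
    (p₁ p₂ p₃ : ι → Fin N → Matrix Bool Bool ℂ),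
    (∀ k, IsPF (p₁ k) ∧ IsPF (p₂ k) ∧ IsPF (p₃ k)) ∧ ∑ k, |c k| ≤ 9 ^ T.card ∧
    star G * prodOp p * G = ∑ k, (c k : ℂ) • (prodOp (p₁ k) * prodOp (p₂ k) * prodOp (p₃ k))

def IsLayer (G : Mat N) : Prop := G ∈ unitary (Mat N) ∧ Expands G ∧ Expands (star G)

def Depth (s : ℕ) (U : Mat N) : Prop :=
  ∃ l : List (Mat N), l.length ≤ s ∧ (∀ G ∈ l, IsLayer G) ∧ U = l.prod

/-- the matrix of a gate -/
def gateMat : Gate N → Mat N
  | .oneQubit i u => prodOp (Function.update 1 i u)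
  | .toffoli S t => 1 - (2 : ℂ) • prodOp fun i =>
      if i = t then Matrix.of fun a b => if a = b then 1 / 2 else -1 / 2
      else if i ∈ S then Matrix.of fun a b => if a = true ∧ b = true then 1 else 0 else 1

end concrete

def Small (N s : ℕ) (K : ℝ) : Prop := ∀ U : Mat N, Depth s U →
  ∀ (h p : Fin N → Matrix Bool Bool ℂ) (T : Finset (Fin N)), IsPF h → IsPF p → Supp p T →
    Hop (frame h) (star U * prodOp p * U) K T.card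

def Big (N s : ℕ) (K : ℝ) : Prop := ∀ U : Mat N, Depth s U →
  ∀ h p : Fin N → Matrix Bool Bool ℂ, IsPF h → IsPF p →
    Hop (frame h) (star U * prodOp p * U) K 0

/-! ### tasks: polynomials -/

def T_w : Prop := ∀ (m : ℕ) (l b k₀ : ℝ), 8 * m + 14 ≤ Real.exp l → 1 ≤ b → b ≤ k₀ →
  ∃ (r : ℕ) (w : ℝ → ℝ), 1 ≤ r ∧ (r : ℝ) ≤ 2 * √(k₀ / b) ∧ PD m r (Real.exp (r * l)) w ∧
    w 0 = 1 ∧ (∀ x, 0 ≤ x → x ≤ k₀ → |w x| ≤ 1) ∧ (∀ x, b ≤ x → x ≤ k₀ → |w x| ≤ 1 / 3) ∧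
    ∀ x, 0 ≤ x → x ≤ b → 1 - 8 * x / b ≤ w x

def PolyQ : Prop := ∀ (m : ℕ) (l k₁ a : ℝ), 8 * m + 14 ≤ Real.exp l → 1 ≤ a → 2 * a ≤ k₁ →
  ∃ (D : ℕ) (q : ℝ → ℝ), (D : ℝ) ≤ 10 * l * √(k₁ * a) ∧ PD m D (Real.exp (D * l)) q ∧ q 0 = 1 ∧
    ∀ x : ℕ, 1 ≤ x → x ≤ m → (x : ℝ) ≤ k₁ → |q x| ≤ Real.exp (-a)

def PolyG : Prop := ∀ (m : ℕ) (l b k₀ A : ℝ), 8 * m + 14 ≤ Real.exp l → 1 ≤ b → b ≤ k₀ → 1 ≤ A →
  A ≤ Real.exp l → ∃ (k : ℕ) (f : ℝ → ℝ), (k : ℝ) ≤ 48 * l * A * √(k₀ / b) ∧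
    PD m k (Real.exp (k * l)) f ∧ (∀ x, 0 ≤ x → x ≤ b / (64 * l) → |f x| ≤ Real.exp (-A)) ∧
    (∀ x, 0 ≤ x → x ≤ k₀ → |f x| ≤ 1) ∧ ∀ x, b ≤ x → x ≤ k₀ → 1 / 2 ≤ f x

def T_q : Prop := T_w → PolyQ

def T_g : Prop := T_w → PolyG

/-! ### tasks: the bootstrap -/

def Step : Prop := ∀ (𝔄 : Type) [CStarAlgebra 𝔄] (m : ℕ) (E F : Finset (Fin m) → 𝔄)
  (K l Y : ℝ) (j : ℕ), IsFrame E → IsFrame F → 1 ≤ K → 1 ≤ Y → 8 * m + 14 ≤ Real.exp l →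
  (∀ T, Hop E (up F T) K T.card) → (∀ T, Hop F (up E T) K T.card) →
  Prof E (F ∅) j Y → Prof E (F ∅) (j + 1) ((400 * K * l ^ 2) ^ 5 * Y)

def T_step : Prop := PolyQ → PolyG → Step

def Boot : Prop := ∀ (𝔄 : Type) [CStarAlgebra 𝔄] (m : ℕ) (E F : Finset (Fin m) → 𝔄)
  (K l μ : ℝ) (j : ℕ), IsFrame E → IsFrame F → 1 ≤ K → 1 ≤ μ → 8 * m + 14 ≤ Real.exp l →
  (m : ℝ) ≤ μ ^ (2 * j + 1) →
  (∀ T, Hop E (up F T) K T.card) → (∀ T, Hop F (up E T) K T.card) →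
  Hop E (F ∅) ((400 * K * l ^ 2) ^ (5 * j) * μ) 0

def T_boot : Prop := Step → Boot

/-! ### tasks: circuits -/

def T_zero : Prop := ∀ N, Small N 0 1

def T_star : Prop := Boot → ∀ (N s j : ℕ) (K l μ : ℝ), 1 ≤ K → 1 ≤ μ → 8 * N + 14 ≤ Real.exp l →
  (N : ℝ) ≤ μ ^ (2 * j + 1) → Small N s K → Big N s ((400 * K * l ^ 2) ^ (5 * j) * μ)

def T_succ : Prop := ∀ (N s : ℕ) (K : ℝ), 1 ≤ K → Big N s K → Small N (s + 1) (15 * K ^ 3)

def Main : Prop := ∀ (s : ℕ) (δ : ℝ), 0 < δ → ∃ N₀ : ℕ, ∀ N ≥ N₀, Big N s ((N : ℝ) ^ δ)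

def T_asym : Prop := T_zero → T_succ →
  (∀ (N s j : ℕ) (K l μ : ℝ), 1 ≤ K → 1 ≤ μ → 8 * N + 14 ≤ Real.exp l →
    (N : ℝ) ≤ μ ^ (2 * j + 1) → Small N s K → Big N s ((400 * K * l ^ 2) ^ (5 * j) * μ)) → Main

def T_layer : Prop := ∀ (N : ℕ) (L : List (Gate N)), LayerWF L →
  IsLayer (L.map gateMat).reverse.prod

def T_gate : Prop := ∀ (N : ℕ) (g : Gate N), g.WellFormed → ∀ ψ : QState N,
  g.apply ψ = (gateMat g).mulVec ψ

def Circ : Prop := ∀ (N : ℕ) (C : List (List (Gate N))), CircuitWF C →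
  ∃ U : Mat N, Depth C.length U ∧ U ∈ unitary (Mat N) ∧ ∀ ψ, runCircuit C ψ = U.mulVec ψ

def T_circ : Prop := T_layer → T_gate → Circ

def T_fin : Prop := Main → Circ → ∀ (d c : ℕ) (ε : ℝ), 0 < ε →
  ∃ n₀ : ℕ, ∀ n ≥ n₀, ∀ N : ℕ, n ≤ N → N ≤ n ^ c →
    ∀ C : List (List (Gate N)), CircuitWF C → C.length ≤ d →
      ∀ o : Fin N, ∃ x : Fin n → Bool,
        outcomeProb o (parity x) (runCircuit C (basisState (inputString n x))) < 1 / 2 + ε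

end Crest.Agent.H2.QA
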