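import Crest.Agent.H2.QA.Basic

/-! From the operator estimate to the parity lower bound. -/

set_option autoImplicit false

noncomputable section

namespace Crest.Agent.H2.QA

open Crest.Quantum.Circuit Finset
open scoped Matrix.Norms.L2Operator

namespace FinX

variable {N : ℕ}

theorem entry_le (X : Mat N) (a b : Fin N → Bool) : ‖X a b‖ ≤ ‖X‖ := by
  have h := Matrix.l2_opNorm_mulVec X (EuclideanSpace.single b (1 : ℂ))
  rw [PiLp.norm_single, norm_one, mul_one] at h
  refine le_trans (le_of_eq ?_) ((PiLp.norm_apply_le _ a).trans h)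
  simp

theorem sum_prod (g : Fin N → Bool → ℝ) :
    ∑ a : Fin N → Bool, ∏ i, g i (a i) = ∏ i, ∑ β, g i β := by
  rw [prod_univ_sum, Fintype.piFinset_univ]

theorem prod_diag (d : Fin N → Bool → ℂ) :
    prodOp (fun i => Matrix.diagonal (d i)) = Matrix.diagonal fun a => ∏ i, d i (a i) := by
  ext x y
  rw [prodOp_apply]
  by_cases h : x = y
  · subst h; simp
  · obtain ⟨i, hi⟩ := Function.ne_iff.1 h
    rw [Matrix.diagonal_apply_ne _ h]
    exact prod_eq_zero (mem_univ i) (Matrix.diagonal_apply_ne _ hi)

theorem fn_diag (q : Fin N → Bool → Prop) [∀ i β, Decidable (q i β)] (f : Finset (Fin N) → ℝ) :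
    fn (frame fun i => Matrix.diagonal fun β => if q i β then (1 : ℂ) else 0) f =
      Matrix.diagonal fun a => (f (univ.filter fun i => q i (a i)) : ℂ) := by
  have e : ∀ S, frame (fun i => Matrix.diagonal fun β => if q i β then (1 : ℂ) else 0) S =
      Matrix.diagonal fun a => if S = univ.filter fun i => q i (a i) then 1 else 0 := by
    intro S
    rw [frame, prodOp_congr (b := fun i => Matrix.diagonal fun β =>
      if (i ∈ S ↔ q i β) then (1 : ℂ) else 0), prod_diag]
    · congr 1
      funext a
      rw [prod_ite_zero]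
      simp [Finset.ext_iff]
    · intro i
      by_cases h : i ∈ S
      · simp [h]
      · rw [if_neg h, ← Matrix.diagonal_one, Matrix.diagonal_sub]
        congr 1
        funext β
        by_cases h' : q i β <;> simp [h, h']
  ext x y
  simp only [fn, e, Matrix.sum_apply, Matrix.smul_apply, Matrix.diagonal_apply]
  split_ifs <;> simp

/-- the Hadamard matrix -/
def had : Matrix Bool Bool ℂ := Matrix.of fun a b =>
  if a = true ∧ b = true then -((√2)⁻¹ : ℝ) else ((√2)⁻¹ : ℝ)

theorem sq2 : (((√2 : ℝ) : ℂ))⁻¹ * ((√2 : ℝ) : ℂ)⁻¹ = 1 / 2 := by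
  rw [← mul_inv, ← Complex.ofReal_mul, Real.mul_self_sqrt (by norm_num)]; norm_num

theorem star_had : star had = had := by
  ext a b
  cases a <;> cases b <;> simp [had, Matrix.star_apply]

theorem had_sq : had * had = 1 := by
  ext a b
  cases a <;> cases b <;> simp [had, Matrix.mul_apply, sq2] <;> norm_num

def xm : Matrix Bool Bool ℂ := Matrix.of fun a b => if a = b then 0 else 1

theorem had_x : had * xm * had = Matrix.diagonal fun β => if β then -1 else 1 := by
  ext a b
  cases a <;> cases b <;> simp [had, xm, Matrix.mul_apply, sq2] <;> norm_num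

theorem card_lt (n : ℕ) (h : n ≤ N) : (univ.filter fun i : Fin N => (i : ℕ) < n).card = n := by
  rw [Fin.card_filter_val_lt]; omega

theorem card_true {n : ℕ} (h : n ≤ N) (x : Fin n → Bool) :
    (univ.filter fun i : Fin N => inputString n x i = true).card =
      (univ.filter fun i => x i = true).card := by
  symm
  refine card_bij (fun i _ => Fin.castLE h i) (fun i hi => ?_) (fun i _ j _ e => ?_)
    (fun j hj => ?_)
  · simpa [inputString] using hi
  · exact Fin.castLE_injective h e
  · have hj' := (mem_filter.1 hj).2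
    unfold inputString at hj'
    split_ifs at hj' with hn
    exact ⟨⟨j, hn⟩, by simpa using hj', rfl⟩

theorem key {n : ℕ} (hn : 1 ≤ n) (h : n ≤ N) (P : Mat N) {η ε : ℝ} {b : ℝ} (hb : b < n)
    (H : ∀ g : Fin N → Matrix Bool Bool ℂ, IsPF g → ‖hi (frame g) b * P * lo (frame g) 0‖ ≤ η)
    (hP : ∀ x : Fin n → Bool, ((P (inputString n x) (inputString n x)).re - 1 / 2) *
      (if parity x then -1 else 1) ≤ -ε) : ε ≤ η := by
  let v : Fin N → Matrix Bool Bool ℂ := fun i => if (i : ℕ) < n then had else 1
  have hv1 : ∀ i, star (v i) = v i := fun i => by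
    simp only [v]; split_ifs; exacts [star_had, star_one _]
  have hv2 : ∀ i, v i * v i = 1 := fun i => by
    simp only [v]; split_ifs; exacts [had_sq, one_mul _]
  set V := prodOp v with hV
  have hV1 : star V = V := by rw [hV, star_prodOp]; exact prodOp_congr hv1
  have hV2 : V * V = 1 := by rw [hV, prodOp_mul, ← prodOp_one]; exact prodOp_congr hv2
  have hVn : ‖V‖ ≤ 1 := by
    have := CStarRing.norm_star_mul_self (x := V)
    rw [hV1, hV2, norm_one] at this
    nlinarith [norm_nonneg V]
  let f : Fin N → Matrix Bool Bool ℂ := fun i =>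
    if (i : ℕ) < n then xm else Matrix.diagonal fun β => if β then 0 else 1
  let d : Fin N → Bool → ℝ := fun i β =>
    if (i : ℕ) < n then (if β then -1 else 1) else (if β then 0 else 1)
  have hF : V * prodOp f * V = Matrix.diagonal fun a => ((∏ i, d i (a i) : ℝ) : ℂ) := by
    rw [hV, prodOp_mul, prodOp_mul, prodOp_congr (b := fun i => Matrix.diagonal fun β =>
      (d i β : ℂ)), prod_diag]
    · simp
    · intro i
      simp only [v, f, d]
      split_ifs
      · rw [had_x]; congr 1; funext β; cases β <;> simp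
      · rw [one_mul, mul_one]; congr 1; funext β; cases β <;> simp
  set w : ℝ := ∏ i : Fin N, if (i : ℕ) < n then 2 else 1 with hw
  have hw0 : 0 < w := prod_pos fun i _ => by split_ifs <;> norm_num
  have h1 : ∀ a c, prodOp f c a ≠ 0 → ‖(V * P * V) a c‖ ≤ η := by
    intro a c hac
    rw [prodOp_apply] at hac
    have hf : ∀ i, f i (c i) (a i) ≠ 0 := fun i => prod_ne_zero_iff.1 hac i (mem_univ i)
    let g : Fin N → Matrix Bool Bool ℂ := fun i =>
      Matrix.diagonal fun β => if (i : ℕ) < n ∧ β = a i then (1 : ℂ) else 0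
    have hg : IsPF g := fun i => ⟨by
      rw [IsIdempotentElem, Matrix.diagonal_mul_diagonal]
      congr 1; funext β; split_ifs <;> simp, by
      rw [IsSelfAdjoint, Matrix.star_eq_conjTranspose, Matrix.diagonal_conjTranspose]
      congr 1; funext β; simp only [Pi.star_apply]; split_ifs <;> simp⟩
    have hg' : IsPF fun i => v i * g i * v i := fun i => ⟨by
      rw [IsIdempotentElem]
      calc _ = v i * g i * (v i * v i) * g i * v i := by simp only [mul_assoc]
        _ = _ := by rw [hv2, mul_one, mul_assoc (v i), (hg i).isIdempotentElem.eq], by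
      rw [IsSelfAdjoint, star_mul, star_mul, hv1, (hg i).isSelfAdjoint.star_eq, ← mul_assoc]⟩
    have hfr : frame (fun i => v i * g i * v i) = fun S => star V * frame g S * V := by
      funext S
      rw [hV1, hV, frame, frame, prodOp_mul, prodOp_mul]
      refine prodOp_congr fun i => ?_
      split_ifs
      · rfl
      · rw [mul_sub, sub_mul, mul_one, hv2]
    have h2 := H _ hg'
    rw [hfr, hi, lo, fn_conj, fn_conj, hV1, fn_diag, fn_diag] at h2
    set D₁ : Mat N := Matrix.diagonal _ with hD₁
    set D₂ : Mat N := Matrix.diagonal fun z : Fin N → Bool => (((if ((univ.filter fun i : Fin N =>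
      (i : ℕ) < n ∧ z i = a i).card : ℝ) ≤ 0 then 1 else 0 : ℝ)) : ℂ) with hD₂
    have h3 : D₁ * (V * P * V) * D₂ = V * (V * D₁ * V * P * (V * D₂ * V)) * V := by
      calc _ = (V * V) * D₁ * (V * P * V) * D₂ * (V * V) := by rw [hV2, one_mul, mul_one]
        _ = _ := by simp only [mul_assoc]
    have h4 : ‖D₁ * (V * P * V) * D₂‖ ≤ η := by
      rw [h3]
      calc _ ≤ ‖V‖ * ‖V * D₁ * V * P * (V * D₂ * V)‖ * ‖V‖ := norm_mul₃_le
        _ ≤ 1 * η * 1 := by
          have := (norm_nonneg _).trans h2
          gcongr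
        _ = η := by ring
    refine le_trans (le_of_eq ?_) ((entry_le _ a c).trans h4)
    have e1 : (univ.filter fun i : Fin N => (i : ℕ) < n ∧ c i = a i) = ∅ := by
      refine filter_eq_empty_iff.2 fun i _ hi => hf i ?_
      simp [f, hi.1, hi.2, xm]
    rw [hD₁, hD₂, Matrix.mul_diagonal, Matrix.diagonal_mul, e1]
    simp [card_lt n h, hb]
  have h5 : ‖(V * P * V * prodOp f).trace‖ ≤ η * w := by
    have e : w = ∑ a : Fin N → Bool, ∑ c : Fin N → Bool, ‖prodOp f c a‖ := by
      simp only [prodOp_apply, norm_prod]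
      rw [sum_congr rfl fun a _ => sum_prod fun i β => ‖f i β (a i)‖,
        sum_prod fun i β => ∑ γ, ‖f i γ β‖]
      refine prod_congr rfl fun i _ => ?_
      simp only [f]
      split_ifs <;> simp [xm, Matrix.diagonal_apply] <;> norm_num
    rw [e, Matrix.trace, mul_sum]
    refine (norm_sum_le _ _).trans (sum_le_sum fun a _ => ?_)
    rw [Matrix.diag_apply, Matrix.mul_apply, mul_sum]
    refine (norm_sum_le _ _).trans (sum_le_sum fun c _ => ?_)
    rw [norm_mul]
    by_cases hac : prodOp f c a = 0
    · simp [hac]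
    · exact mul_le_mul_of_nonneg_right (h1 a c hac) (norm_nonneg _)
  have h6 : (V * P * V * prodOp f).trace.re = ∑ a, (P a a).re * ∏ i, d i (a i) := by
    rw [mul_assoc, mul_assoc, Matrix.trace_mul_comm, mul_assoc, hF, Matrix.trace, Complex.re_sum]
    refine sum_congr rfl fun a _ => ?_
    rw [Matrix.diag_apply, Matrix.mul_diagonal, Complex.re_mul_ofReal]
  have h7 : ∑ a : Fin N → Bool, ∏ i, d i (a i) = 0 := by
    rw [sum_prod d]
    exact prod_eq_zero (mem_univ (⟨0, by omega⟩ : Fin N)) (by simp [d, show 0 < n from hn])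
  have h8 : ∑ a : Fin N → Bool, |∏ i, d i (a i)| = w := by
    simp only [abs_prod]
    rw [sum_prod fun i β => |d i β|]
    refine prod_congr rfl fun i _ => ?_
    simp only [d]
    split_ifs <;> simp <;> norm_num
  have h9 : ∀ a : Fin N → Bool, ((P a a).re - 1 / 2) * ∏ i, d i (a i) ≤ -ε * |∏ i, d i (a i)| := by
    intro a
    by_cases h0 : ∏ i, d i (a i) = 0
    · simp [h0]
    have ha : ∀ i : Fin N, ¬(i : ℕ) < n → a i = false := fun i hi => by
      have := prod_ne_zero_iff.1 h0 i (mem_univ i)
      simpa [d, hi] using this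
    have e1 : a = inputString n fun i => a (Fin.castLE h i) := by
      funext i
      simp only [inputString]
      split_ifs with hi
      · rfl
      · exact ha i hi
    have e2 : ∏ i, d i (a i) = if parity (fun i => a (Fin.castLE h i)) then -1 else 1 := by
      rw [prod_congr rfl (g := fun i => if a i = true then -1 else 1) fun i _ => by
        by_cases hi : (i : ℕ) < n
        · simp [d, hi]
        · simp [d, hi, ha i hi], prod_ite, prod_const, prod_const_one, mul_one, parity,
        ← card_true h, ← e1]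
      generalize (univ.filter fun i => a i = true).card = k
      induction k with
      | zero => simp
      | succ k ih => rw [pow_succ, ih, Nat.bodd_succ]; cases k.bodd <;> simp
    have := hP fun i => a (Fin.castLE h i)
    rw [← e1, ← e2] at this
    have e3 : |∏ i, d i (a i)| = 1 := by rw [e2]; split_ifs <;> simp
    rw [e3]; linarith
  have h10 := sum_le_sum fun a (_ : a ∈ univ) => h9 a
  simp only [sub_mul, sum_sub_distrib, ← mul_sum, h7, h8, ← h6] at h10
  have h11 := neg_abs_le (V * P * V * prodOp f).trace.re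
  have h12 := Complex.abs_re_le_norm (V * P * V * prodOp f).trace
  exact le_of_mul_le_mul_right (by linarith) hw0

theorem prob (U : Mat N) (hU : U ∈ unitary (Mat N)) (o : Fin N) (σ : Fin N → Bool) :
    ((star U * prodOp (fun i => Matrix.diagonal fun β => if i = o ∧ β = false then (0 : ℂ) else 1)
      * U) σ σ).re = outcomeProb o true (U.mulVec (basisState σ)) ∧
    outcomeProb o false (U.mulVec (basisState σ)) =
      1 - outcomeProb o true (U.mulVec (basisState σ)) := by
  have e : ∀ z, U.mulVec (basisState σ) z = U z σ := fun z => by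
    simp [Matrix.mulVec, dotProduct, basisState]
  have e2 : ∀ z, star (U z σ) * U z σ = ((‖U z σ‖ ^ 2 : ℝ) : ℂ) := fun z => by
    rw [Complex.star_def, Complex.conj_mul']; push_cast; rfl
  constructor
  · rw [prod_diag, Matrix.mul_apply, Complex.re_sum, outcomeProb]
    refine sum_congr rfl fun z _ => ?_
    rw [Matrix.mul_diagonal, Matrix.star_apply, e, prod_eq_single o (fun i _ hi => by simp [hi])
      (by simp)]
    cases hz : z o
    · simp
    · simp only [Bool.true_eq_false, and_false, if_false, mul_one, e2, Complex.ofReal_re, if_true]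
  · have h1 := congrArg Complex.re (congrFun (congrFun hU.1 σ) σ)
    rw [Matrix.mul_apply, Complex.re_sum, Matrix.one_apply_eq, Complex.one_re] at h1
    rw [← h1, outcomeProb, outcomeProb, ← sum_sub_distrib]
    refine sum_congr rfl fun z _ => ?_
    rw [Matrix.star_apply, e2, Complex.ofReal_re, e]
    cases z o <;> simp

end FinX

open FinX in
theorem t_fin : T_fin := by
  intro hM hC d c ε hε
  rcases Nat.eq_zero_or_pos c with rfl | hc
  · exact ⟨2, fun n hn N h1 h2 => by rw [pow_zero] at h2; omega⟩
  obtain ⟨N₀, H⟩ := hM d (1 / (2 * c)) (by positivity)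
  set τ : ℝ := max 1 (Real.log (1 / ε) + 1) with hτ
  have hτ1 : 1 ≤ τ := le_max_left _ _
  refine ⟨max N₀ (⌈τ ^ 2⌉₊ + 1), fun n hn N h1 h2 C hwf hlen o => ?_⟩
  have hn1 : 1 ≤ n := le_trans (by omega) ((le_max_right _ _).trans hn)
  have hnτ : τ ^ 2 < n := by
    have : ⌈τ ^ 2⌉₊ + 1 ≤ n := (le_max_right _ _).trans hn
    have h3 : ((⌈τ ^ 2⌉₊ + 1 : ℕ) : ℝ) ≤ n := by exact_mod_cast this
    push_cast at h3
    linarith [Nat.le_ceil (τ ^ 2)]
  obtain ⟨U, ⟨l, hl1, hl2, hl3⟩, hU, hrun⟩ := hC N C hwf
  by_contra hcon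
  push Not at hcon
  have hK : (N : ℝ) ^ (1 / (2 * c) : ℝ) ≤ √n := by
    have h3 : (N : ℝ) ≤ (n : ℝ) ^ c := by exact_mod_cast h2
    refine (Real.rpow_le_rpow (Nat.cast_nonneg _) h3 (by positivity)).trans (le_of_eq ?_)
    rw [← Real.rpow_natCast, ← Real.rpow_mul (Nat.cast_nonneg _), Real.sqrt_eq_rpow]
    congr 1
    field_simp
  have hb : √n * τ < n := by
    have h3 : τ < √n := Real.lt_sqrt_of_sq_lt hnτ
    have h4 : 0 < √(n : ℝ) := by linarith
    calc _ < √n * √n := mul_lt_mul_of_pos_left h3 h4
      _ = n := Real.mul_self_sqrt (Nat.cast_nonneg _)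
  have hpf : IsPF fun i => Matrix.diagonal fun β => if i = o ∧ β = false then (0 : ℂ) else 1 :=
    fun i => ⟨by
      rw [IsIdempotentElem, Matrix.diagonal_mul_diagonal]
      congr 1; funext β; split_ifs <;> simp, by
      rw [IsSelfAdjoint, Matrix.star_eq_conjTranspose, Matrix.diagonal_conjTranspose]
      congr 1; funext β; simp only [Pi.star_apply]; split_ifs <;> simp⟩
  have h3 := key hn1 h1 _ (ε := ε) hb (fun g hg => H N (((le_max_left _ _).trans hn).trans h1) U
    ⟨l, hl1.trans hlen, hl2, hl3⟩ g _ hg hpf 0 τ _ le_rfl hτ1 (by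
      rw [zero_add, add_zero]; exact mul_le_mul_of_nonneg_right hK (by linarith))) (fun x => by
    have h4 := hcon x
    have h5 := prob U hU o (inputString n x)
    rw [hrun] at h4
    rw [h5.1]
    cases hp : parity x
    · rw [hp, h5.2] at h4; simp only [Bool.false_eq_true, if_false]; linarith
    · rw [hp] at h4; simp only [if_true]; linarith)
  have h4 : Real.exp (-τ) < ε := by
    rw [← Real.lt_log_iff_exp_lt hε]
    have : Real.log (1 / ε) + 1 ≤ τ := le_max_right _ _
    rw [one_div, Real.log_inv] at this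
    linarith
  linarith

end Crest.Agent.H2.QA
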