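import Crest.Agent.H2.QA.Basic

/-! Task `g` of S0539: a bounded threshold polynomial. -/

set_option autoImplicit false

noncomputable section

namespace Crest.Agent.H2.QA

theorem t_g : T_g := by
  intro hw m l b k₀ A hl hb hk hA hAl
  obtain ⟨r, w, hr1, hr, hPD, -, hw1, hw3, hw0⟩ := hw m l b k₀ hl hb hk
  have hm : (0 : ℝ) ≤ m := Nat.cast_nonneg m
  have he14 : (14 : ℝ) ≤ Real.exp l := by linarith
  have hl1 : 1 ≤ l := by
    by_contra h
    have h1 : Real.exp l ≤ Real.exp 1 := Real.exp_le_exp.2 (le_of_lt (not_le.1 h))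
    have := Real.exp_one_lt_d9
    linarith
  obtain ⟨L, hL1, hL2⟩ : ∃ L : ℕ, l ≤ L ∧ (L : ℝ) ≤ 2 * l :=
    ⟨⌈l⌉₊, Nat.le_ceil l, by have := Nat.ceil_lt_add_one (show 0 ≤ l by linarith); linarith⟩
  obtain ⟨p, hp1, hp2⟩ : ∃ p : ℕ, 2 * A ≤ p ∧ (p : ℝ) ≤ 3 * A :=
    ⟨⌈2 * A⌉₊, Nat.le_ceil _, by
      have := Nat.ceil_lt_add_one (show 0 ≤ 2 * A by linarith); linarith⟩
  have hr1' : (1 : ℝ) ≤ r := by exact_mod_cast hr1
  have hle : ∀ x, 0 ≤ x → x ≤ k₀ → 0 ≤ w x ^ (2 * L) ∧ w x ^ (2 * L) ≤ 1 := fun x h0 h1 => by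
    refine ⟨(even_two_mul L).pow_nonneg _, ?_⟩
    rw [← (even_two_mul L).pow_abs]
    exact pow_le_one₀ (abs_nonneg _) (hw1 x h0 h1)
  refine ⟨p * (4 * L * r), fun x => (1 - w x ^ (2 * L)) ^ p, ?_, ?_, fun x h0 h1 => ?_,
    fun x h0 h1 => ?_, fun x h0 h1 => ?_⟩
  · push_cast
    have h0 : (0 : ℝ) ≤ L := Nat.cast_nonneg L
    have h1 : (L : ℝ) * r ≤ 2 * l * (2 * √(k₀ / b)) :=
      mul_le_mul hL2 hr (by linarith) (by linarith)
    have h2 : (p : ℝ) * (L * r) ≤ 3 * A * (2 * l * (2 * √(k₀ / b))) :=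
      mul_le_mul hp2 h1 (by positivity) (by linarith)
    nlinarith
  · have h1 := ((((LD.const (m := m) 1).mono (Nat.zero_le (2 * L * r)) le_rfl).sub
      (LD.pow hPD (2 * L))).pow p)
    refine h1.mono (Nat.mul_le_mul_left _ (Nat.mul_le_mul_right _ (by omega))) ?_
    have h2 : |(1 : ℝ)| + Real.exp (r * l) ^ (2 * L) ≤ Real.exp (4 * L * r * l) := by
      rw [← Real.exp_nat_mul, abs_one]
      have h3 : (1 : ℝ) ≤ (2 * L : ℕ) * (r * l) := by
        push_cast
        have : (1 : ℝ) ≤ r * l := one_le_mul_of_one_le_of_one_le hr1' hl1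
        nlinarith
      have h4 : (4 * L * r * l : ℝ) = (2 * L : ℕ) * (r * l) + (2 * L : ℕ) * (r * l) := by
        push_cast; ring
      rw [h4, Real.exp_add]
      have h5 := Real.add_one_le_exp (((2 * L : ℕ) : ℝ) * (r * l))
      nlinarith
    calc _ ≤ Real.exp (4 * L * r * l) ^ p := pow_le_pow_left₀ (by positivity) h2 p
      _ = _ := by rw [← Real.exp_nat_mul]; congr 1; push_cast; ring
  · have hxb : x ≤ b := by
      refine h1.trans (div_le_self (by linarith) (by linarith))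
    obtain ⟨a0, a1⟩ := hle x h0 (hxb.trans hk)
    have h2 : 8 * x / b ≤ 1 / (8 * l) := by
      rw [le_div_iff₀ (by linarith)] at h1
      rw [div_le_div_iff₀ (by linarith) (by linarith)]
      linarith
    have h3 : 1 / (8 * l) ≤ 1 := by
      rw [div_le_one (by linarith)]; linarith
    have h4 : 1 + (-(1 / (8 * l))) ≤ w x := by have := hw0 x h0 hxb; linarith
    have h5 := one_add_mul_le_pow (a := -(1 / (8 * l))) (by linarith) (2 * L)
    have h6 := pow_le_pow_left₀ (by linarith) h4 (2 * L)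
    have h7 : ((2 * L : ℕ) : ℝ) * (1 / (8 * l)) ≤ 1 / 2 := by
      rw [mul_one_div, div_le_div_iff₀ (by linarith) (by norm_num)]
      push_cast; linarith
    have h8 : 1 - w x ^ (2 * L) ≤ 1 / 2 := by linarith
    have h9 : (1 / 2 : ℝ) ≤ Real.exp (-(1 / 2)) := by
      have := Real.add_one_le_exp (-(1 / 2) : ℝ); linarith
    rw [abs_of_nonneg (pow_nonneg (by linarith) _)]
    calc _ ≤ Real.exp (-(1 / 2)) ^ p := pow_le_pow_left₀ (by linarith) (h8.trans h9) p
      _ ≤ _ := by rw [← Real.exp_nat_mul]; exact Real.exp_le_exp.2 (by linarith)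
  · obtain ⟨a0, a1⟩ := hle x h0 h1
    rw [abs_of_nonneg (pow_nonneg (by linarith) _)]
    exact pow_le_one₀ (by linarith) (by linarith)
  · obtain ⟨a0, a1⟩ := hle x (by linarith) h1
    have h2 : w x ^ (2 * L) ≤ (1 / 9) ^ L := by
      rw [← (even_two_mul L).pow_abs, show (1 / 9 : ℝ) = (1 / 3) ^ 2 by norm_num, ← pow_mul]
      exact pow_le_pow_left₀ (abs_nonneg _) (hw3 x h0 h1) _
    have h3 : Real.exp 2 ≤ 9 := by
      have := Real.exp_one_lt_d9
      have h := Real.exp_pos 1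
      rw [show (2 : ℝ) = 1 + 1 by norm_num, Real.exp_add]; nlinarith
    have h4 : Real.exp l * Real.exp l ≤ 9 ^ L := by
      calc _ = Real.exp (l + l) := (Real.exp_add _ _).symm
        _ ≤ Real.exp (L * 2) := Real.exp_le_exp.2 (by linarith)
        _ = Real.exp 2 ^ L := Real.exp_nat_mul _ _
        _ ≤ _ := pow_le_pow_left₀ (by positivity) h3 L
    have h5 : (p : ℝ) * (1 / 9) ^ L ≤ 1 / 2 := by
      rw [one_div_pow, mul_one_div, div_le_iff₀ (by positivity)]
      nlinarith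
    have h6 := one_add_mul_le_pow (a := -(w x ^ (2 * L))) (by linarith) p
    have h7 : (p : ℝ) * w x ^ (2 * L) ≤ p * (1 / 9) ^ L :=
      mul_le_mul_of_nonneg_left h2 (Nat.cast_nonneg p)
    beta_reduce
    rw [sub_eq_add_neg]
    linarith

end Crest.Agent.H2.QA
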