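import Crest.Agent.H2.QA.Basic

/-! Task `gate` of the S0539 plan: gates act by their matrices. -/

set_option autoImplicit false

noncomputable section

namespace Crest.Agent.H2.QA

open Crest.Quantum.Circuit Finset

namespace GateA

variable {N : ℕ}

theorem sum_update (f : (Fin N → Bool) → ℂ) (σ : Fin N → Bool) (t : Fin N)
    (h : ∀ τ i, i ≠ t → τ i ≠ σ i → f τ = 0) :
    ∑ τ, f τ = ∑ b, f (Function.update σ t b) := by
  symm
  refine Finset.sum_of_injOn (fun b => Function.update σ t b) ?_ (by simp) ?_ (fun _ _ => rfl)
  · intro b _ b' _ h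
    simpa using congrFun h t
  · intro τ _ hτ
    by_contra hc
    refine hτ ⟨τ t, by simp, ?_⟩
    funext i
    by_cases hi : i = t
    · subst hi; simp
    · by_contra h2
      exact hc (h τ i hi fun e => h2 (by simp [Function.update_of_ne hi, e]))

theorem mulVec_prodOp (a : Fin N → Matrix Bool Bool ℂ) (t : Fin N)
    (h : ∀ i, i ≠ t → ∀ x y, x ≠ y → a i x y = 0) (ψ : QState N) (σ : Fin N → Bool) :
    (prodOp a).mulVec ψ σ = (∏ i ∈ univ.erase t, a i (σ i) (σ i)) *
      ∑ b, a t (σ t) b * ψ (Function.update σ t b) := by
  simp only [Matrix.mulVec, dotProduct]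
  rw [sum_update _ σ t, Finset.mul_sum]
  · refine Finset.sum_congr rfl fun b _ => ?_
    rw [prodOp_apply, ← Finset.prod_erase_mul _ _ (mem_univ t), mul_assoc, Function.update_self]
    congr 1
    refine Finset.prod_congr rfl fun i hi => ?_
    rw [Function.update_of_ne (ne_of_mem_erase hi)]
  · intro τ i hi hτ
    rw [prodOp_apply, Finset.prod_eq_zero (mem_univ i) (h i hi _ _ (Ne.symm hτ)), zero_mul]

end GateA

open GateA in
theorem t_gate : T_gate := by
  intro N g hg ψ
  funext σ
  cases g with
  | oneQubit i u =>
    simp only [Gate.apply, gateMat]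
    rw [mulVec_prodOp _ i, Finset.prod_eq_one, one_mul, Function.update_self]
    · intro j hj
      rw [Function.update_of_ne (ne_of_mem_erase hj)]
      simp
    · intro j hj x y hxy
      rw [Function.update_of_ne hj]
      simp [Matrix.one_apply_ne hxy]
  | toffoli S t =>
    have ht : t ∉ S := hg
    simp only [Gate.apply, gateMat]
    rw [Matrix.sub_mulVec, Matrix.one_mulVec, Matrix.smul_mulVec, Pi.sub_apply, Pi.smul_apply,
      mulVec_prodOp _ t]
    · by_cases hS : ∀ i ∈ S, σ i = true
      · rw [Finset.prod_eq_one]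
        · have e : ψ σ = ψ (Function.update σ t (σ t)) := by rw [Function.update_eq_self]
          rw [e, decide_eq_true hS]
          cases σ t <;> simp <;> ring
        · intro j hj
          rw [if_neg (ne_of_mem_erase hj)]
          by_cases hjS : j ∈ S
          · simp [hjS, hS j hjS]
          · simp [hjS]
      · rw [decide_eq_false hS]
        push Not at hS
        obtain ⟨j, hj, hσ⟩ := hS
        have hjt : j ≠ t := fun e => ht (e ▸ hj)
        rw [Finset.prod_eq_zero (mem_erase.2 ⟨hjt, mem_univ j⟩)]
        · simp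
        · simp [hjt, hj, hσ]
    · intro j hj x y hxy
      rw [if_neg hj]
      by_cases hjS : j ∈ S
      · simp only [hjS, if_true, Matrix.of_apply]
        rw [if_neg]
        rintro ⟨rfl, rfl⟩
        exact hxy rfl
      · simp [hjS, Matrix.one_apply_ne hxy]

end Crest.Agent.H2.QA
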