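import Crest.Agent.H2.QA.Defs

/-! Tasks `gate` and `circ` of the S0539 plan. -/

set_option autoImplicit false

noncomputable section

namespace Crest.Agent.H2.QA

open Crest.Quantum.Circuit
open scoped Matrix.Norms.L2Operator

namespace GateX

variable {N : ℕ}

lemma prodOp_mulVec (a : Fin N → Matrix Bool Bool ℂ) (t : Fin N)
    (ha : ∀ i, i ≠ t → ∀ u v, u ≠ v → a i u v = 0) (ψ : QState N) (σ : Fin N → Bool) :
    (prodOp a).mulVec ψ σ = (∏ i ∈ Finset.univ.erase t, a i (σ i) (σ i)) *
      ∑ b : Bool, a t (σ t) b * ψ (Function.update σ t b) := by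
  rw [Finset.mul_sum]
  symm
  simp only [Matrix.mulVec, dotProduct, prodOp, Matrix.of_apply]
  refine Fintype.sum_of_injective (fun b => Function.update σ t b)
    (Function.update_injective σ t) _ _ ?_ ?_
  · intro y hy
    have : ∃ i, i ≠ t ∧ σ i ≠ y i := by
      by_contra hc
      push Not at hc
      apply hy
      refine ⟨y t, ?_⟩
      funext i
      by_cases hi : i = t
      · subst hi; simp
      · simp [Function.update_of_ne hi, hc i hi]
    obtain ⟨i, hi, hne⟩ := this
    rw [Finset.prod_eq_zero (Finset.mem_univ i) (ha i hi _ _ hne), zero_mul]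
  · intro b
    rw [← Finset.mul_prod_erase Finset.univ _ (Finset.mem_univ t), Function.update_self]
    have : ∏ i ∈ Finset.univ.erase t, a i (σ i) (Function.update σ t b i) =
        ∏ i ∈ Finset.univ.erase t, a i (σ i) (σ i) :=
      Finset.prod_congr rfl fun i hi => by rw [Function.update_of_ne (Finset.ne_of_mem_erase hi)]
    rw [this]
    ring

lemma layer_apply (hg : T_gate) (L : List (Gate N)) (hL : ∀ g ∈ L, g.WellFormed) (ψ : QState N) :
    applyLayer L ψ = (L.map gateMat).reverse.prod.mulVec ψ := by
  induction L generalizing ψ with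
  | nil => simp [applyLayer]
  | cons g L ih =>
    have h1 : applyLayer (g :: L) ψ = applyLayer L (g.apply ψ) := rfl
    rw [h1, ih (fun g' h' => hL g' (List.mem_cons_of_mem _ h')), hg N g (hL g List.mem_cons_self)]
    simp [Matrix.mulVec_mulVec]

end GateX

open GateX

theorem t_gate : T_gate := by
  intro N g hg ψ
  funext σ
  cases g with
  | oneQubit i u =>
    simp only [Gate.apply, gateMat]
    rw [prodOp_mulVec _ i]
    · rw [Finset.prod_eq_one, one_mul, Function.update_self]
      intro j hj
      rw [Function.update_of_ne (Finset.ne_of_mem_erase hj)]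
      simp
    · intro j hj x y hxy
      rw [Function.update_of_ne hj]
      simp [Matrix.one_apply_ne hxy]
  | toffoli S t =>
    have ht : t ∉ S := hg
    simp only [Gate.apply, gateMat]
    rw [Matrix.sub_mulVec, Matrix.smul_mulVec, Matrix.one_mulVec, Pi.sub_apply, Pi.smul_apply,
      prodOp_mulVec _ t]
    · by_cases hS : ∀ i ∈ S, σ i = true
      · rw [Finset.prod_eq_one]
        · have hσ : ψ σ = ψ (Function.update σ t (σ t)) := by simp
          rw [hσ, decide_eq_true hS]
          cases h : σ t <;> simp <;> ring
        · intro j hj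
          rw [if_neg (Finset.ne_of_mem_erase hj)]
          by_cases hjS : j ∈ S
          · simp [hjS, hS j hjS]
          · simp [hjS]
      · rw [decide_eq_false hS]
        push Not at hS
        obtain ⟨j, hjS, hj⟩ := hS
        have hjt : j ≠ t := fun e => ht (e ▸ hjS)
        rw [Finset.prod_eq_zero (Finset.mem_erase.2 ⟨hjt, Finset.mem_univ j⟩)]
        · simp
        · simp [hjt, hjS, hj]
    · intro j hj x y hxy
      rw [if_neg hj]
      by_cases hjS : j ∈ S
      · rw [if_pos hjS]
        cases x <;> cases y <;> simp_all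
      · rw [if_neg hjS]
        exact Matrix.one_apply_ne hxy

theorem t_circ : T_circ := by
  intro hl hg N C
  induction C with
  | nil => exact fun _ => ⟨1, ⟨[], le_rfl, by simp, rfl⟩, one_mem _, fun ψ => by simp [runCircuit]⟩
  | cons L C ih =>
    intro hC
    obtain ⟨U, ⟨l, hl1, hl2, hl3⟩, hU, hrun⟩ := ih fun L' h' => hC L' (List.mem_cons_of_mem _ h')
    have hL := hC L List.mem_cons_self
    have hG := hl N L hL
    refine ⟨U * (L.map gateMat).reverse.prod, ⟨l ++ [(L.map gateMat).reverse.prod], ?_, ?_, ?_⟩,
      mul_mem hU hG.1, fun ψ => ?_⟩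
    · simpa using hl1
    · intro G hGm
      rcases List.mem_append.1 hGm with h | h
      · exact hl2 G h
      · rw [List.mem_singleton.1 h]; exact hG
    · rw [List.prod_append, List.prod_singleton, hl3]
    · have h1 : runCircuit (L :: C) ψ = runCircuit C (applyLayer L ψ) := rfl
      rw [h1, hrun, layer_apply hg L hL.1, Matrix.mulVec_mulVec]

end Crest.Agent.H2.QA
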