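import Crest.Agent.H2.QA.Basic

/-! Layers of gates expand small product projections. -/

set_option autoImplicit false

noncomputable section

namespace Crest.Agent.H2.QA

open Crest.Quantum.Circuit Finset
open scoped Matrix.Norms.L2Operator

namespace LayerX

variable {N : ℕ}

/-- abstract gates supported in `W` -/
def AG (W : Finset (Fin N)) (g : Mat N) : Prop :=
  (∃ (i : Fin N) (u : Matrix Bool Bool ℂ), W = {i} ∧ star u * u = 1 ∧ u * star u = 1 ∧
    g = prodOp (Function.update 1 i u)) ∨
  ∃ π, IsPF π ∧ Supp π W ∧ g = 1 - (2 : ℂ) • prodOp π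

theorem star_upd (i : Fin N) (u : Matrix Bool Bool ℂ) :
    star (prodOp (Function.update 1 i u)) = prodOp (Function.update 1 i (star u)) := by
  rw [star_prodOp]
  refine prodOp_congr fun j => ?_
  by_cases h : j = i
  · subst h; simp
  · simp [h]

theorem star_refl {π : Fin N → Matrix Bool Bool ℂ} (h : IsPF π) :
    star (1 - (2 : ℂ) • prodOp π) = 1 - (2 : ℂ) • prodOp π := by
  rw [star_sub, star_one, star_smul, h.proj.isSelfAdjoint.star_eq]
  simp

theorem refl_sq {π : Fin N → Matrix Bool Bool ℂ} (h : IsPF π) :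
    (1 - (2 : ℂ) • prodOp π) * (1 - (2 : ℂ) • prodOp π) = 1 := by
  simp only [sub_mul, mul_sub, one_mul, mul_one, smul_mul_assoc, mul_smul_comm,
    h.proj.isIdempotentElem.eq]
  module

theorem AG.star {W : Finset (Fin N)} {g : Mat N} (h : AG W g) : AG W (star g) := by
  rcases h with ⟨i, u, hW, h1, h2, rfl⟩ | ⟨π, h1, h2, rfl⟩
  · exact Or.inl ⟨i, Star.star u, hW, by rwa [star_star], by rwa [star_star], star_upd i u⟩
  · exact Or.inr ⟨π, h1, h2, star_refl h1⟩

theorem upd_mul (i : Fin N) {u v : Matrix Bool Bool ℂ} (h : u * v = 1) :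
    prodOp (Function.update 1 i u) * prodOp (Function.update (1 : Fin N → _) i v) = 1 := by
  rw [prodOp_mul, ← prodOp_one]
  refine prodOp_congr fun j => ?_
  by_cases hj : j = i
  · subst hj; simpa using h
  · simp [hj]

theorem AG.unit {W : Finset (Fin N)} {g : Mat N} (h : AG W g) : g ∈ unitary (Mat N) := by
  rcases h with ⟨i, u, -, h1, h2, rfl⟩ | ⟨π, h1, -, rfl⟩
  · exact ⟨by rw [star_upd, upd_mul i h1], by rw [star_upd, upd_mul i h2]⟩
  · exact ⟨by rw [star_refl h1, refl_sq h1], by rw [star_refl h1, refl_sq h1]⟩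

theorem comm_of_supp {p q : Fin N → Matrix Bool Bool ℂ} {V W : Finset (Fin N)} (hp : Supp p V)
    (hq : Supp q W) (h : Disjoint V W) (i : Fin N) : p i * q i = q i * p i := by
  by_cases hi : i ∈ V
  · rw [hq i (disjoint_left.1 h hi), mul_one, one_mul]
  · rw [hp i hi, mul_one, one_mul]

theorem AG.comm {W V : Finset (Fin N)} {g : Mat N} (h : AG W g) {p : Fin N → Matrix Bool Bool ℂ}
    (hp : Supp p V) (hd : Disjoint V W) : Commute (prodOp p) g := by
  rcases h with ⟨i, u, rfl, -, -, rfl⟩ | ⟨π, -, h2, rfl⟩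
  · exact prodOp_comm (comm_of_supp (W := {i}) hp
      (fun j hj => Function.update_of_ne (by simpa using hj) _ _) hd)
  · exact (Commute.one_right _).sub_right
      (Commute.smul_right (prodOp_comm (comm_of_supp hp h2 hd)) _)

theorem pf_mul {p q : Fin N → Matrix Bool Bool ℂ} {V W : Finset (Fin N)} (hp : IsPF p)
    (hq : IsPF q) (hpV : Supp p V) (hqW : Supp q W) (h : Disjoint V W) :
    IsPF fun i => p i * q i := fun i => by
  by_cases hi : i ∈ V
  · simpa [hqW i (disjoint_left.1 h hi)] using hp i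
  · simpa [hpV i hi] using hq i

theorem supp_mul {p q : Fin N → Matrix Bool Bool ℂ} {V W X : Finset (Fin N)} (hpV : Supp p V)
    (hqW : Supp q W) (h1 : V ⊆ X) (h2 : W ⊆ X) : Supp (fun i => p i * q i) X := fun i hi => by
  simp only [hpV i fun h => hi (h1 h), hqW i fun h => hi (h2 h), mul_one]

theorem main (l : List (Finset (Fin N) × Mat N)) (hl : ∀ x ∈ l, AG x.1 x.2)
    (hd : l.Pairwise fun x y => Disjoint x.1 y.1) :
    ∃ W : Finset (Fin N), (∀ V, (∀ x ∈ l, Disjoint V x.1) → Disjoint V W) ∧
      ∀ (p : Fin N → Matrix Bool Bool ℂ) (T : Finset (Fin N)), IsPF p → Supp p T →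
        ∃ (ι : Type) (_ : Fintype ι) (c : ι → ℝ) (p₁ p₂ p₃ : ι → Fin N → Matrix Bool Bool ℂ),
          (∀ k, IsPF (p₁ k) ∧ IsPF (p₂ k) ∧ IsPF (p₃ k) ∧ Supp (p₁ k) W ∧ Supp (p₃ k) W) ∧
          ∑ k, |c k| ≤ 9 ^ (T ∩ W).card ∧
          star (l.map Prod.snd).prod * prodOp p * (l.map Prod.snd).prod =
            ∑ k, (c k : ℂ) • (prodOp (p₁ k) * prodOp (p₂ k) * prodOp (p₃ k)) := by
  have one_pf : IsPF (fun _ : Fin N => (1 : Matrix Bool Bool ℂ)) := fun _ => IsStarProjection.one _
  induction l with
  | nil =>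
    refine ⟨∅, fun V _ => disjoint_empty_right V, fun p T hp _ => ⟨Unit, inferInstance, fun _ => 1,
      fun _ _ => 1, fun _ => p, fun _ _ => 1,
      fun _ => ⟨one_pf, hp, one_pf, fun _ _ => rfl, fun _ _ => rfl⟩, by simp, ?_⟩⟩
    simp [prodOp_one]
  | cons x l ih =>
    obtain ⟨V₀, g⟩ := x
    rw [List.pairwise_cons] at hd
    obtain ⟨W, hW, H⟩ := ih (fun y hy => hl y (List.mem_cons_of_mem _ hy)) hd.2
    have hVW : Disjoint V₀ W := hW V₀ hd.1
    have hg : AG V₀ g := hl _ List.mem_cons_self
    refine ⟨V₀ ∪ W, fun V hV => disjoint_union_right.2 ⟨hV _ List.mem_cons_self,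
      hW V fun y hy => hV y (List.mem_cons_of_mem _ hy)⟩, fun p T hp hT => ?_⟩
    set G := (l.map Prod.snd).prod with hG
    have e0 : star (((V₀, g) :: l).map Prod.snd).prod * prodOp p *
        (((V₀, g) :: l).map Prod.snd).prod = star G * (star g * prodOp p * g) * G := by
      simp only [List.map_cons, List.prod_cons, star_mul, ← hG, mul_assoc]
    rw [e0]
    have easy : ∀ p' : Fin N → Matrix Bool Bool ℂ, IsPF p' → Supp p' T →
        star g * prodOp p * g = prodOp p' →
        ∃ (ι : Type) (_ : Fintype ι) (c : ι → ℝ) (p₁ p₂ p₃ : ι → Fin N → Matrix Bool Bool ℂ),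
          (∀ k, IsPF (p₁ k) ∧ IsPF (p₂ k) ∧ IsPF (p₃ k) ∧ Supp (p₁ k) (V₀ ∪ W) ∧
            Supp (p₃ k) (V₀ ∪ W)) ∧ ∑ k, |c k| ≤ 9 ^ (T ∩ (V₀ ∪ W)).card ∧
          star G * (star g * prodOp p * g) * G =
            ∑ k, (c k : ℂ) • (prodOp (p₁ k) * prodOp (p₂ k) * prodOp (p₃ k)) := by
      intro p' h1 h2 h3
      obtain ⟨ι, _, c, p₁, p₂, p₃, k1, k2, k3⟩ := H p' T h1 h2
      refine ⟨ι, inferInstance, c, p₁, p₂, p₃, fun k => ⟨(k1 k).1, (k1 k).2.1, (k1 k).2.2.1,
        fun i hi => (k1 k).2.2.2.1 i fun h => hi (mem_union_right _ h),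
        fun i hi => (k1 k).2.2.2.2 i fun h => hi (mem_union_right _ h)⟩, k2.trans ?_,
        by rw [h3, k3]⟩
      exact pow_le_pow_right₀ (by norm_num)
        (card_le_card (inter_subset_inter_left subset_union_right))
    by_cases hTV : Disjoint T V₀
    · refine easy p hp hT ?_
      rw [mul_assoc, (hg.comm hT hTV).eq, ← mul_assoc, hg.unit.1, one_mul]
    rcases hg with ⟨i, u, rfl, h1, h2, rfl⟩ | ⟨π, h1, h2, rfl⟩
    · have hi : i ∈ T := by simpa using hTV
      refine easy (Function.update p i (star u * p i * u)) (fun j => ?_) (fun j hj => ?_) ?_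
      · by_cases hj : j = i
        · subst hj
          rw [Function.update_self]
          refine ⟨?_, by rw [IsSelfAdjoint, star_mul, star_mul, star_star,
            (hp j).isSelfAdjoint.star_eq, mul_assoc]⟩
          rw [IsIdempotentElem]
          calc _ = star u * p j * (u * star u) * p j * u := by simp only [mul_assoc]
            _ = _ := by rw [h2, mul_one, mul_assoc (star u), (hp j).isIdempotentElem.eq]
        · rw [Function.update_of_ne hj]; exact hp j
      · rw [Function.update_of_ne (fun h : j = i => hj (by rw [h]; exact hi)), hT j hj]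
      · rw [star_upd, prodOp_mul, prodOp_mul]
        refine prodOp_congr fun j => ?_
        by_cases hj : j = i
        · subst hj; simp
        · simp [hj]
    · obtain ⟨ι, _, c, p₁, p₂, p₃, k1, k2, k3⟩ := H p T hp hT
      let ρ : Bool → Fin N → Matrix Bool Bool ℂ := fun a => if a then π else fun _ => 1
      have hρ : ∀ a, IsPF (ρ a) ∧ Supp (ρ a) V₀ := fun a => by
        cases a
        · exact ⟨one_pf, fun _ _ => rfl⟩
        · exact ⟨h1, h2⟩
      let e : Bool → ℝ := fun a => if a then -2 else 1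
      have hcG : Commute (prodOp π) G := by
        refine Commute.list_prod_right _ _ fun y hy => ?_
        obtain ⟨z, hz, rfl⟩ := List.mem_map.1 hy
        exact (hl z (List.mem_cons_of_mem _ hz)).comm h2 (hd.1 z hz)
      have hcG' : Commute (prodOp π) (star G) := by
        have := hcG.star_star
        rwa [h1.proj.isSelfAdjoint.star_eq] at this
      refine ⟨(Bool × Bool) × ι, inferInstance, fun k => e k.1.1 * e k.1.2 * c k.2,
        fun k i => ρ k.1.1 i * p₁ k.2 i, fun k => p₂ k.2, fun k i => p₃ k.2 i * ρ k.1.2 i,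
        fun k => ⟨pf_mul (hρ _).1 (k1 _).1 (hρ _).2 (k1 _).2.2.2.1 hVW, (k1 _).2.1,
          pf_mul (k1 _).2.2.1 (hρ _).1 (k1 _).2.2.2.2 (hρ _).2 hVW.symm,
          supp_mul (hρ _).2 (k1 _).2.2.2.1 subset_union_left subset_union_right,
          supp_mul (k1 _).2.2.2.2 (hρ _).2 subset_union_right subset_union_left⟩, ?_, ?_⟩
      · have hc : (T ∩ W).card + 1 ≤ (T ∩ (V₀ ∪ W)).card := by
          obtain ⟨i, hiT, hiV⟩ := not_disjoint_iff.1 hTV
          refine card_lt_card ⟨inter_subset_inter_left subset_union_right, fun h => ?_⟩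
          exact disjoint_left.1 hVW hiV
            (mem_inter.1 (h (mem_inter.2 ⟨hiT, mem_union_left _ hiV⟩))).2
        refine le_trans ?_ (pow_le_pow_right₀ (by norm_num) hc)
        have e9 : ∑ k : (Bool × Bool) × ι, |e k.1.1 * e k.1.2 * c k.2| = 9 * ∑ k, |c k| := by
          rw [Fintype.sum_prod_type_right, mul_sum]
          refine sum_congr rfl fun k _ => ?_
          simp only [Fintype.sum_prod_type, Fintype.sum_bool, abs_mul, e]
          norm_num
          ring
        rw [e9, pow_succ]
        linarith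
      · have e1 : star G * (star (1 - (2 : ℂ) • prodOp π) * prodOp p * (1 - (2 : ℂ) • prodOp π)) *
            G = (1 - (2 : ℂ) • prodOp π) * (star G * prodOp p * G) * (1 - (2 : ℂ) • prodOp π) := by
          have c1 : Commute (1 - (2 : ℂ) • prodOp π) G :=
            (Commute.one_left _).sub_left (hcG.smul_left _)
          have c2 : Commute (1 - (2 : ℂ) • prodOp π) (star G) :=
            (Commute.one_left _).sub_left (hcG'.smul_left _)
          rw [star_refl h1]
          calc _ = (star G * (1 - (2 : ℂ) • prodOp π)) * prodOp p *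
                ((1 - (2 : ℂ) • prodOp π) * G) := by simp only [mul_assoc]
            _ = _ := by rw [← c2.eq, c1.eq]; simp only [mul_assoc]
        rw [e1, k3, Fintype.sum_prod_type_right, mul_sum, sum_mul]
        refine sum_congr rfl fun k _ => ?_
        simp only [Fintype.sum_prod_type, Fintype.sum_bool, ← prodOp_mul, ρ, e, if_true,
          Bool.false_eq_true, if_false, prodOp_one, one_mul, mul_one, sub_mul, mul_sub,
          smul_mul_assoc, mul_smul_comm, smul_smul, smul_sub, mul_assoc]
        push_cast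
        module

theorem expands (l : List (Finset (Fin N) × Mat N)) (hl : ∀ x ∈ l, AG x.1 x.2)
    (hd : l.Pairwise fun x y => Disjoint x.1 y.1) : Expands (l.map Prod.snd).prod := by
  intro p T hp hT
  obtain ⟨W, -, H⟩ := main l hl hd
  obtain ⟨ι, _, c, p₁, p₂, p₃, k1, k2, k3⟩ := H p T hp hT
  exact ⟨ι, inferInstance, c, p₁, p₂, p₃, fun k => ⟨(k1 k).1, (k1 k).2.1, (k1 k).2.2.1⟩,
    k2.trans (pow_le_pow_right₀ (by norm_num) (card_le_card inter_subset_left)), k3⟩

theorem ag_gate (g : Gate N) (hg : g.WellFormed) : AG g.support (gateMat g) := by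
  cases g with
  | oneQubit i u => exact Or.inl ⟨i, u, rfl, hg.1, hg.2, rfl⟩
  | toffoli S t =>
    refine Or.inr ⟨_, fun i => ?_, fun i hi => ?_, rfl⟩
    · split_ifs
      · refine ⟨?_, ?_⟩
        · rw [IsIdempotentElem]
          ext a b
          cases a <;> cases b <;> simp [Matrix.mul_apply] <;> norm_num
        · rw [IsSelfAdjoint]
          ext a b
          cases a <;> cases b <;> simp [Matrix.star_apply]
      · refine ⟨?_, ?_⟩
        · rw [IsIdempotentElem]
          ext a b
          cases a <;> cases b <;> simp [Matrix.mul_apply]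
        · rw [IsSelfAdjoint]
          ext a b
          cases a <;> cases b <;> simp [Matrix.star_apply]
      · exact IsStarProjection.one _
    · simp only [Gate.support, mem_insert, not_or] at hi
      simp [hi.1, hi.2]

theorem star_rev (l : List (Mat N)) : star l.reverse.prod = (l.map star).prod := by
  induction l with
  | nil => simp
  | cons a l ih => simp [ih]

end LayerX

open LayerX in
theorem t_layer : T_layer := by
  intro N L hL
  refine ⟨Submonoid.list_prod_mem _ fun x hx => ?_, ?_, ?_⟩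
  · obtain ⟨g, hg, rfl⟩ := List.mem_map.1 (List.mem_reverse.1 hx)
    exact (ag_gate g (hL.1 g hg)).unit
  · have := expands (L.map fun g => (g.support, gateMat g)).reverse (fun x hx => by
      obtain ⟨g, hg, rfl⟩ := List.mem_map.1 (List.mem_reverse.1 hx)
      exact ag_gate g (hL.1 g hg)) (by
      rw [List.pairwise_reverse, List.pairwise_map]
      exact hL.2.imp fun h => h.symm)
    rwa [List.map_reverse, List.map_map] at this
  · have := expands (L.map fun g => (g.support, star (gateMat g))) (fun x hx => by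
      obtain ⟨g, hg, rfl⟩ := List.mem_map.1 hx
      exact (ag_gate g (hL.1 g hg)).star) (by
      rw [List.pairwise_map]
      exact hL.2)
    rw [star_rev, List.map_map]
    rwa [List.map_map] at this

end Crest.Agent.H2.QA
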