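/-!
# Plan for S0539 (statements in `H2/QA/Defs.lean`; files `H2/QA/<Task>.lean`, namespace `Crest.Agent.H2.QA`)
Target of task `x`: `theorem t_x : T_x`.  `Basic.lean`: LD/PD closure (const, card, add, smul, mul, pow, prod, mono, abs_le), fn calculus, prodOp calculus.
Use `open scoped Matrix.Norms.L2Operator`.  Private helpers in a sub-namespace.

## w.  r = ⌈√(k₀/b)⌉, y x = 1 + 2(b-x)/k₀, w x = T_r(y x)/T_r(y 0) (Chebyshev).  |T_r| ≤ 1 on [-1,1] (cos); T_r(cosh θ) = cosh(rθ) is ≥ 1 and monotone;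
T_r(1+δ) ≥ 1 + r²δ (induction on differences), so T_r(y 0) ≥ 3; T_r(y') - T_r(y) ≤ r²(y'-y) T_r(y') for 1 ≤ y ≤ y' (cosh a - cosh b = 2 sinh sinh and
sinh(ru) ≤ r sinh u cosh(ru)); r² ≤ 4k₀/b.  Mass: y has degree 1, mass μ ≤ 3+2m; T_n∘y has mass ≤ (2μ+1)^n by the recurrence.
## q.  a' = ⌈a⌉, L = ⌈a' l + a⌉ ≤ 4 a l, q x = ∏_{i=1}^{a'} (1 - x/i) * w x ^ L with w for (b, k₀) = (a', k₁); D = a' + r L.  l ≥ 1 since exp l ≥ 14.
## g.  L = ⌈l⌉, p = ⌈2A⌉, f = (1 - w^(2L))^p, k = 4 r L p (mass (1+e^(2rLl))^p).  Bernoulli twice: w^(2L) ≥ 1/2 near 0; f ≥ 1 - p 9^(-L) ≥ 1/2 on [b,k₀].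
## step (helper2).  X = 400 K l², Ξ = lo E R, P = F ∅ = lo F 0, a = 2A+6, D̄ = b/X, k̄ = D̄²/(X²A), k₀ = b k̄²/(X² D̄²), WLOG b < m.
‖hi b PΞ‖ ≤ 2‖fPΞ‖ + ‖hi k₀ PΞ‖, ‖fPΞ‖² = ‖ΞPf²PΞ‖ ≤ ‖Ξ q lo_b' f² PΞ‖ + ‖Ξ q hi_b'‖‖f²PΞ‖ + ‖(P-q) f² PΞ‖.
## boot.  Prof 0 1 (hi E b = 0 for b ≥ m), induction gives Prof j (X^(5j)); then b ≥ X^(5j) μ (R+A) implies the three conditions.
## zero.  U = 1.  frame S * prodOp p * frame S' = prodOp (..) = 0 as soon as some i ∉ T is in S \ S'; if |S| > b ≥ |S'| + |T| such an i exists; the norm is 0.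
## star.  E = frame h, F S = U* frame (1-p) S U; F ∅ = U* prodOp p U; up (frame h) T = prodOp (if i ∈ T then h i else 1); second hop: conjugate by U and use Small for star U
(Depth is closed under star: (l.map star).reverse; U is unitary; hi F b = U* hi (frame ..) b U).
## succ.  l = []: Big itself.  l = G :: l': expand star G * prodOp p * G; for contractions X₁X₂X₃ with Hop K 0 insert hi + lo = 1 twice:
thresholds b₁ = K(R+τ'), b₂ = K(b₁+τ'), b ≥ K(b₂+τ'), τ' = τ + 3|T| + 2, norm ≤ 9^|T| 3 e^(-τ') ≤ e^(-τ); U* X₁X₂X₃ U = (U*X₁U)(U*X₂U)(U*X₃U).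
## asym.  Induct on s: ∀ δ, eventually Small N s (N^δ) (Hop, Small, Big are monotone in K); l = log(8N+14), μ = N^(1/(2j+1)), 1/(2j+1) ≤ δ/2,
K = N^δ', (400 K l²)^(5j) ≤ N^(δ/2) eventually (`isLittleO_log_rpow_atTop`), 15 K³ ≤ N^δ eventually.
## layer.  Induct on the list with the invariant: star G p G = ∑ c P₁ p' P₃, P₁, P₃ supported in W (union of the supports so far), p' supported in T, mass ≤ 9^|T ∩ W|.
One-qubit u at i ∉ W: p' ↦ u* p' u.  Toffoli 1-2Π with support disjoint from T: commutes; meeting T: four terms (P₁Π^a) p' (Π^b P₃).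
Prove it for an abstract gate (prodOp (update 1 i u), u unitary, or 1 - 2 prodOp π, π supported in a set) so that it applies to star G (reverse list, star gates) too.
## gate.  Entrywise computation.   ## circ.  foldl induction, U = G_d ⋯ G_1.
## fin.  c = 0 is void for n ≥ 2.  P = U* prodOp p U, p = |1⟩⟨1| at o; P x x = outcomeProb o true, the two outcomes sum to 1.  If the claim fails,
|∑_x (-1)^|x| P_{x0,x0}| ≥ ε 2^n.  v_y = 2^(-n/2) (-1)^(y·x) on inputs, ancillas 0; ∑_y v_{¬y}* P v_y = ∑_x (-1)^|x| P_{x0,x0}; h_i = X-basis projection onto ¬y_i (i < n), 0 else: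
lo 0 v_y = v_y, hi b v_{¬y} = v_{¬y} for b < n, so each term is ≤ e^(-τ), τ = log(1/ε)+1 ⊔ 1, b = N^δ τ ≤ √n τ < n with δ = 1/(2c).
-/
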