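import Crest.Agent.H2.QA.Basic

/-! Task `q` of S0539: an approximate indicator of zero. -/

set_option autoImplicit false

noncomputable section

namespace Crest.Agent.H2.QA

open Finset

namespace Qx

theorem prod_le (n x : ℕ) (m : ℕ) (e : ℝ) (hx : n < x) (hm : x ≤ m) (he : (m : ℝ) + 1 ≤ e) :
    |∏ i ∈ range n, (1 + (-(1 / (i + 1 : ℝ))) * (x : ℝ))| ≤ e ^ n := by
  rw [abs_prod]
  have hx' : (x : ℝ) ≤ m := by exact_mod_cast hm
  calc _ ≤ ∏ _i ∈ range n, e := prod_le_prod (fun _ _ => abs_nonneg _) fun i _ => ?_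
    _ = _ := by simp
  have h0 : (0 : ℝ) ≤ x := Nat.cast_nonneg x
  have h1 : 1 / (i + 1 : ℝ) ≤ 1 := by
    rw [div_le_one (by positivity)]; have : (0 : ℝ) ≤ i := Nat.cast_nonneg i; linarith
  have h2 : 0 ≤ 1 / (i + 1 : ℝ) := by positivity
  rw [abs_le]
  constructor <;> nlinarith

end Qx

theorem t_q : T_q := by
  intro hw m l k₁ a hl ha hk
  have hm : (0 : ℝ) ≤ m := Nat.cast_nonneg m
  have he14 : (14 : ℝ) ≤ Real.exp l := by linarith
  have hl1 : 1 ≤ l := by
    by_contra h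
    have h1 : Real.exp l ≤ Real.exp 1 := Real.exp_le_exp.2 (le_of_lt (not_le.1 h))
    have := Real.exp_one_lt_d9
    linarith
  obtain ⟨n, hn1, hn2⟩ : ∃ n : ℕ, a ≤ n ∧ (n : ℝ) ≤ 2 * a :=
    ⟨⌈a⌉₊, Nat.le_ceil a, by have := Nat.ceil_lt_add_one (show 0 ≤ a by linarith); linarith⟩
  obtain ⟨L, hL1, hL2⟩ : ∃ L : ℕ, n * l + a ≤ L ∧ (L : ℝ) ≤ n * l + a + 1 :=
    ⟨⌈n * l + a⌉₊, Nat.le_ceil _, (Nat.ceil_lt_add_one (by positivity)).le⟩
  obtain ⟨r, w, hr1, hr, hPD, hw00, -, hw3, -⟩ := hw m l n k₁ hl (by linarith) (by linarith)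
  have hn0 : (0 : ℝ) < n := by linarith
  have hk0 : (0 : ℝ) < k₁ := by linarith
  have ha0 : (0 : ℝ) < a := by linarith
  refine ⟨n * 1 + L * r, fun x => (∏ i ∈ range n, (1 + (-(1 / (i + 1 : ℝ))) * x)) * w x ^ L,
    ?_, ?_, by simp [hw00], fun x h1 h2 h3 => ?_⟩
  · push_cast
    have h1 : √(k₁ / n) * a ≤ √(k₁ * a) := by
      have : √(k₁ / n) * a = √(k₁ / n * a ^ 2) := by
        rw [Real.sqrt_mul (by positivity), Real.sqrt_sq (by linarith)]
      rw [this]
      refine Real.sqrt_le_sqrt ?_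
      rw [div_mul_eq_mul_div, div_le_iff₀ hn0]
      have : 0 ≤ k₁ * a := by positivity
      nlinarith
    have h2 : (n : ℝ) ≤ 2 * √(k₁ * a) := by
      have : a ≤ √(k₁ * a) := Real.le_sqrt_of_sq_le (by nlinarith)
      linarith
    have h3 : (L : ℝ) ≤ 4 * a * l := by nlinarith
    have h4 : (L : ℝ) * r ≤ 4 * a * l * (2 * √(k₁ / n)) :=
      mul_le_mul h3 hr (Nat.cast_nonneg r) (by positivity)
    have h5 : 0 ≤ √(k₁ * a) := Real.sqrt_nonneg _
    nlinarith
  · have h1 : ∀ i ∈ range n, LD (m := m) 1 (Real.exp l)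
        fun S => 1 + (-(1 / (i + 1 : ℝ))) * (S.card : ℝ) := fun i _ => by
      refine LD.mono (PD.affine m 1 (-(1 / (i + 1 : ℝ)))) le_rfl ?_
      have h1 : 1 / (i + 1 : ℝ) ≤ 1 := by
        rw [div_le_one (by positivity)]; have : (0 : ℝ) ≤ i := Nat.cast_nonneg i; linarith
      rw [abs_neg, abs_one, abs_of_nonneg (by positivity)]
      nlinarith
    have h2 := (LD.prod (range n) h1).mul (LD.pow hPD L)
    rw [card_range] at h2
    refine h2.mono le_rfl (le_of_eq ?_)
    rw [← Real.exp_nat_mul, ← Real.exp_nat_mul, ← Real.exp_add]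
    congr 1; push_cast; ring
  · beta_reduce
    rcases le_or_gt x n with h | h
    · rw [prod_eq_zero (i := x - 1) (mem_range.2 (by omega)), zero_mul, abs_zero]
      · positivity
      · have : ((x - 1 : ℕ) : ℝ) + 1 = x := by
          rw [Nat.cast_sub h1]; simp
        have h0 : (x : ℝ) ≠ 0 := by positivity
        rw [this]; field_simp; ring
    · rw [abs_mul, abs_pow]
      have h4 := Qx.prod_le n x m (Real.exp l) h h2 (by linarith)
      have h5 : |w x| ≤ Real.exp (-1) := by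
        refine (hw3 x (by exact_mod_cast h.le) h3).trans ?_
        rw [Real.exp_neg, ← one_div]
        exact one_div_le_one_div_of_le (Real.exp_pos 1) (by have := Real.exp_one_lt_d9; linarith)
      calc _ ≤ Real.exp l ^ n * Real.exp (-1) ^ L :=
            mul_le_mul h4 (pow_le_pow_left₀ (abs_nonneg _) h5 L) (by positivity) (by positivity)
        _ ≤ _ := by
          rw [← Real.exp_nat_mul, ← Real.exp_nat_mul, ← Real.exp_add]
          exact Real.exp_le_exp.2 (by linarith)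

end Crest.Agent.H2.QA
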