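import Crest.Agent.H2.QA.Basic

/-! Tasks `zero` and `star` of S0539. -/

set_option autoImplicit false

noncomputable section

namespace Crest.Agent.H2.QA

open Finset
open scoped Matrix.Norms.L2Operator

namespace StarX

variable {N : ℕ}

theorem frame_mul_eq_zero {h p : Fin N → Matrix Bool Bool ℂ} {T S S' : Finset (Fin N)}
    (hh : IsPF h) (hT : Supp p T) (hc : S'.card + T.card < S.card) :
    frame h S * prodOp p * frame h S' = 0 := by
  obtain ⟨i, hi, hi'⟩ : ∃ i ∈ S, i ∉ S' ∪ T :=
    exists_mem_notMem_of_card_lt_card ((card_union_le _ _).trans_lt hc)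
  rw [mem_union, not_or] at hi'
  rw [frame, frame, prodOp_mul, prodOp_mul]
  refine prodOp_eq_zero i ?_
  simp [hi, hi'.1, hT i hi'.2, mul_sub, (hh i).isIdempotentElem.eq]

theorem IsLayer.star {G : Mat N} (h : IsLayer G) : IsLayer (star G) :=
  ⟨Unitary.star_mem h.1, h.2.2, by rw [star_star]; exact h.2.1⟩

theorem depth_unitary {s : ℕ} {U : Mat N} (h : Depth s U) : U ∈ unitary (Mat N) := by
  obtain ⟨l, -, hl, rfl⟩ := h
  exact list_prod_mem fun G hG => (hl G hG).1

theorem depth_star {s : ℕ} {U : Mat N} (h : Depth s U) : Depth s (star U) := by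
  obtain ⟨l, hs, hl, rfl⟩ := h
  refine ⟨(l.map star).reverse, by simpa using hs, fun G hG => ?_, ?_⟩
  · obtain ⟨G', hG', rfl⟩ := List.mem_map.1 (List.mem_reverse.1 hG)
    exact IsLayer.star (hl G' hG')
  · clear hs hl
    induction l with
    | nil => simp
    | cons G l ih => simp [star_mul, ih]

end StarX

open StarX

theorem t_zero : T_zero := by
  intro N U hU h p T hh _ hT R τ b hR hτ hb
  obtain ⟨l, hs, -, rfl⟩ := hU
  obtain rfl : l = [] := List.eq_nil_of_length_eq_zero (Nat.le_zero.1 hs)
  have e : hi (frame h) b * (star ([] : List (Mat N)).prod * prodOp p * ([] : List (Mat N)).prod) *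
      lo (frame h) R = 0 := by
    simp only [List.prod_nil, star_one, one_mul, mul_one, hi, lo, fn, sum_mul, mul_sum]
    refine sum_eq_zero fun S' _ => sum_eq_zero fun S _ => ?_
    by_cases h1 : b < S.card
    · by_cases h2 : (S'.card : ℝ) ≤ R
      · rw [smul_mul_assoc, smul_mul_smul_comm, frame_mul_eq_zero hh hT, smul_zero]
        have : (S'.card : ℝ) + T.card < S.card := by linarith
        exact_mod_cast this
      · simp [h2]
    · simp [h1]
  rw [e, norm_zero]
  exact (Real.exp_pos _).le

theorem t_star : T_star := by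
  intro hB N s j K l μ hK hμ hl hN hS U hU h p hh hp
  have hUu := depth_unitary hU
  have hq : IsPF fun i => 1 - p i := fun i => (hp i).one_sub
  have hite : ∀ {a : Fin N → Matrix Bool Bool ℂ}, IsPF a → ∀ T : Finset (Fin N),
      IsPF (fun i => if i ∈ T then a i else 1) ∧ Supp (fun i => if i ∈ T then a i else 1) T :=
    fun ha T => ⟨fun i => by
      by_cases hi : i ∈ T
      · simpa [hi] using ha i
      · simp [hi], fun i hi => if_neg hi⟩
  have key := hB (Mat N) N (frame h) (fun S => star U * frame (fun i => 1 - p i) S * U) K l μ j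
    hh.isFrame (hq.isFrame.conj hUu) hK hμ hl hN (fun T => ?_) (fun T => ?_)
  · have e : frame (fun i => 1 - p i) ∅ = prodOp p := by
      rw [frame_empty]
      exact prodOp_congr fun i => sub_sub_cancel _ _
    simpa only [e] using key
  · have e : up (fun S => star U * frame (fun i => 1 - p i) S * U) T =
        star U * prodOp (fun i => if i ∈ T then 1 - p i else 1) * U := by
      rw [up, fn_conj, ← up, up_frame]
    rw [e]
    exact hS U hU h _ T hh (hite hq T).1 (hite hq T).2
  · intro R τ b hR hτ hb
    have h1 := hS (star U) (depth_star hU) _ _ T hq (hite hh T).1 (hite hh T).2 R τ b hR hτ hb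
    rw [star_star] at h1
    rw [up_frame, hi, lo, fn_conj, fn_conj, ← hi, ← lo]
    have e : star U * hi (frame fun i => 1 - p i) b * U *
        prodOp (fun i => if i ∈ T then h i else 1) *
          (star U * lo (frame fun i => 1 - p i) R * U) =
        star U * (hi (frame fun i => 1 - p i) b *
          (U * prodOp (fun i => if i ∈ T then h i else 1) * star U) *
            lo (frame fun i => 1 - p i) R) * U := by
      simp only [mul_assoc]
    rw [e, CStarRing.norm_mul_mem_unitary _ hUu,
      CStarRing.norm_mem_unitary_mul _ (Unitary.star_mem hUu)]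
    exact h1

end Crest.Agent.H2.QA
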