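import Crest.Agent.H2.QA.Basic

/-! One step of the bootstrap (`t_step`). -/

set_option autoImplicit false

noncomputable section

namespace Crest.Agent.H2.QA

open Finset

namespace StepX

variable {𝔄 : Type} [CStarAlgebra 𝔄] {m : ℕ} {E F : Finset (Fin m) → 𝔄}

theorem hop_ld {K : ℝ} (hK : 0 ≤ K) (h : ∀ T, Hop E (up F T) K T.card) {D : ℕ} {M : ℝ}
    {q : Finset (Fin m) → ℝ} (hq : LD D M q) {R τ b : ℝ} (hR : 0 ≤ R) (hτ : 1 ≤ τ)
    (hb : K * (R + τ + D) ≤ b) : ‖hi E b * fn F q * lo E R‖ ≤ M * Real.exp (-τ) := by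
  obtain ⟨c, h1, h2, h3⟩ := hq.fn_eq (𝔄 := 𝔄)
  rw [h3 F, mul_sum, sum_mul]
  refine (norm_sum_le _ _).trans (le_trans (sum_le_sum (g := fun T => |c T| * Real.exp (-τ))
    fun T _ => ?_) ?_)
  · rw [mul_smul_comm, smul_mul_assoc, norm_smul, Complex.norm_real, Real.norm_eq_abs]
    by_cases h0 : c T = 0
    · simp [h0]
    · refine mul_le_mul_of_nonneg_left (h T R τ b hR hτ (le_trans ?_ hb)) (abs_nonneg _)
      have : (T.card : ℝ) ≤ D := by exact_mod_cast h1 T h0
      exact mul_le_mul_of_nonneg_left (by linarith) hK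
  · rw [← sum_mul]
    exact mul_le_mul_of_nonneg_right h2 (Real.exp_pos _).le

theorem nm {x y : 𝔄} {a b : ℝ} (hx : ‖x‖ ≤ a) (hy : ‖y‖ ≤ b) : ‖x * y‖ ≤ a * b :=
  (norm_mul_le _ _).trans (mul_le_mul hx hy (norm_nonneg _) ((norm_nonneg _).trans hx))

theorem op (hE : IsFrame E) (hF : IsFrame F) {f q : Finset (Fin m) → ℝ}
    {R b b' k₀ k₁ Mf Mq ε : ℝ} (hε0 : 0 ≤ ε) (hε1 : ε ≤ 1) (hMf : 1 ≤ Mf) (hMq : 0 < Mq)
    (hq0 : q ∅ = 1) (hq1 : ∀ S, S ≠ ∅ → (S.card : ℝ) ≤ k₁ → |q S| ≤ ε) (hqM : ∀ S, |q S| ≤ Mq)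
    (hf1 : ∀ S, (S.card : ℝ) ≤ b' → Mq * (f S * f S) ≤ ε)
    (hf2 : ∀ S, (S.card : ℝ) ≤ k₀ → |f S| ≤ 1)
    (hf3 : ∀ S, b < S.card → (S.card : ℝ) ≤ k₀ → 1 / 2 ≤ f S) (hfM : ∀ S, f S * f S ≤ Mf)
    (h0 : Mf * ‖hi E k₀ * F ∅ * lo E R‖ ≤ ε) (h1 : ‖hi E b' * fn F q * lo E R‖ ≤ ε)
    (h2 : (1 + Mq) * ‖hi F k₁ * fn E (fun S => f S * f S) * F ∅‖ ≤ ε) :
    ‖hi E b * F ∅ * lo E R‖ ≤ 2 * √(6 * ε) + ε := by
  set P := F ∅ with hP
  set Ξ := lo E R with hΞ
  set g := fn E (fun S => f S * f S) with hg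
  set Q := fn F q with hQ
  have nP : ‖P‖ ≤ 1 := (hF.proj ∅).norm_le _
  have nΞ : ‖Ξ‖ ≤ 1 := (lo_proj hE R).norm_le _
  have sP : star P = P := (hF.proj ∅).isSelfAdjoint.star_eq
  have sΞ : star Ξ = Ξ := star_fn hE
  have nPΞ : ‖P * Ξ‖ ≤ 1 := by simpa using nm nP nΞ
  have ng : ‖g‖ ≤ Mf := norm_fn_le hE (by linarith) fun S => by
    rw [abs_of_nonneg (mul_self_nonneg _)]; exact hfM S
  have nQ : ‖Q‖ ≤ Mq := norm_fn_le hF hMq.le hqM
  have ha : ‖g * (P * Ξ)‖ ≤ 2 := by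
    have e : g * (P * Ξ) = g * (hi E k₀ * P * Ξ) + g * lo E k₀ * (P * Ξ) := by
      rw [mul_assoc (hi E k₀), ← mul_assoc g (hi E k₀), ← add_mul, ← mul_add, hi_add_lo hE,
        mul_one]
    have n1 : ‖g * lo E k₀‖ ≤ 1 := by
      rw [hg, lo, fn_mul hE]
      refine norm_fn_le hE zero_le_one fun S => ?_
      split_ifs with h
      · rw [mul_one, abs_mul]
        exact mul_le_one₀ (hf2 S h) (abs_nonneg _) (hf2 S h)
      · simp
    rw [e]
    have n2 := nm ng (le_refl ‖hi E k₀ * P * Ξ‖)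
    have n3 := nm n1 nPΞ
    linarith [norm_add_le (g * (hi E k₀ * P * Ξ)) (g * lo E k₀ * (P * Ξ))]
  have hb : ‖fn E f * (P * Ξ)‖ ^ 2 ≤ 6 * ε := by
    have e1 : star (fn E f * (P * Ξ)) * (fn E f * (P * Ξ)) = Ξ * P * (g * (P * Ξ)) := by
      rw [star_mul, star_mul, sP, sΞ, star_fn hE, hg, ← fn_mul hE]; noncomm_ring
    have e2 : Ξ * P * (g * (P * Ξ)) = Ξ * Q * (lo E b' * g) * (P * Ξ) +
        Ξ * Q * hi E b' * (g * (P * Ξ)) + Ξ * ((P - Q) * lo F k₁) * (g * (P * Ξ)) +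
        Ξ * (P - Q) * (hi F k₁ * g * P) * Ξ := by
      have a1 : lo E b' = 1 - hi E b' := eq_sub_of_add_eq' (hi_add_lo hE b')
      have a2 : lo F k₁ = 1 - hi F k₁ := eq_sub_of_add_eq' (hi_add_lo hF k₁)
      rw [a1, a2]; noncomm_ring
    have n1 : ‖lo E b' * g‖ ≤ ε / Mq := by
      rw [hg, lo, fn_mul hE]
      refine norm_fn_le hE (by positivity) fun S => ?_
      split_ifs with h
      · rw [one_mul, abs_of_nonneg (mul_self_nonneg _), le_div_iff₀ hMq, mul_comm]
        exact hf1 S h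
      · simp; positivity
    have n2 : ‖Ξ * Q * hi E b'‖ ≤ ε := by
      rw [← norm_star, star_mul, star_mul, sΞ, hQ, star_fn hF, hi, star_fn hE, ← mul_assoc]
      exact h1
    have n3 : ‖(P - Q) * lo F k₁‖ ≤ ε := by
      rw [hP, ← fn_single (E := F) ∅, hQ, ← fn_sub, lo, fn_mul hF]
      refine norm_fn_le hF hε0 fun S => ?_
      by_cases hS : S = ∅
      · simp [hS, hq0, hε0]
      · split_ifs with h
        · simpa using hq1 S hS h
        · simpa using hε0
    have n4 : ‖P - Q‖ ≤ 1 + Mq := (norm_sub_le _ _).trans (add_le_add nP nQ)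
    have m1 := nm (nm (nm nΞ nQ) n1) nPΞ
    have m2 := nm n2 ha
    have m3 := nm (nm nΞ n3) ha
    have m4 := nm (nm (nm nΞ n4) (le_refl ‖hi F k₁ * g * P‖)) nΞ
    rw [one_mul, mul_one, mul_div_cancel₀ _ hMq.ne'] at m1
    rw [sq, ← CStarRing.norm_star_mul_self, e1, e2]
    refine (norm_add_le _ _).trans ?_
    refine (add_le_add_left ((norm_add_le _ _).trans (add_le_add_left (norm_add_le _ _) _)) _).trans ?_
    linarith
  have hc : hi E b * P * Ξ =
      fn E (fun S => if b < S.card ∧ (S.card : ℝ) ≤ k₀ then (f S)⁻¹ else 0) * (fn E f * (P * Ξ)) +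
        hi E b * (hi E k₀ * P * Ξ) := by
    rw [mul_assoc (hi E k₀), ← mul_assoc (hi E b) (hi E k₀), ← mul_assoc _ (fn E f), ← add_mul,
      mul_assoc (hi E b) P, hi, hi, fn_mul hE, fn_mul hE, ← fn_add]
    congr 1
    refine fn_congr fun S => ?_
    by_cases h1 : b < S.card
    · by_cases h2 : (S.card : ℝ) ≤ k₀
      · have := hf3 S h1 h2
        rw [if_pos h1, if_pos ⟨h1, h2⟩, if_neg (not_lt.2 h2), inv_mul_cancel₀ (by linarith)]
        simp
      · simp [h1, h2, not_le.1 h2]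
    · simp [h1]
  have n5 : ‖fn E (fun S => if b < S.card ∧ (S.card : ℝ) ≤ k₀ then (f S)⁻¹ else 0)‖ ≤ 2 := by
    refine norm_fn_le hE (by norm_num) fun S => ?_
    split_ifs with h
    · have := hf3 S h.1 h.2
      rw [abs_of_nonneg (by positivity), inv_le_comm₀ (by linarith) (by norm_num)]
      linarith
    · simp
  have m5 := nm n5 (Real.le_sqrt_of_sq_le hb)
  have m6 := nm ((hi_proj hE b).norm_le _) (le_refl ‖hi E k₀ * P * Ξ‖)
  have m7 : ‖hi E k₀ * P * Ξ‖ ≤ ε :=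
    le_trans (le_mul_of_one_le_left (norm_nonneg _) hMf) h0
  rw [hc]
  exact (norm_add_le _ _).trans (by linarith)

theorem final (A : ℝ) (hA : 1 ≤ A) :
    2 * √(6 * Real.exp (-(2 * A + 6))) + Real.exp (-(2 * A + 6)) ≤ Real.exp (-A) := by
  set y := Real.exp (-(A + 3)) with hy
  have hy0 : 0 < y := Real.exp_pos _
  have e1 : Real.exp (-(2 * A + 6)) = y ^ 2 := by
    rw [hy, ← Real.exp_nat_mul]; congr 1; push_cast; ring
  have e2 : Real.exp (-A) = Real.exp 3 * y := by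
    rw [hy, ← Real.exp_add]; congr 1; ring
  have h1 : y ≤ 1 := Real.exp_le_one_iff.2 (by linarith)
  have h2 : (8 : ℝ) ≤ Real.exp 3 := by
    have := Real.quadratic_le_exp_of_nonneg (show (0 : ℝ) ≤ 3 by norm_num)
    linarith
  have h3 : √(6 * y ^ 2) ≤ 3 * y := Real.sqrt_le_iff.2 ⟨by positivity, by nlinarith⟩
  rw [e1, e2]
  nlinarith

end StepX

open StepX

set_option maxHeartbeats 1600000 in
theorem t_step : T_step := by
  intro hQ hG 𝔄 _ m E F K l Y j hE hF hK hY hl hEF hFE hprof R A b hR hA c1 c2 c3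
  by_cases hbm : (m : ℝ) ≤ b
  · rw [hi_eq_zero hbm, zero_mul, zero_mul, norm_zero]; exact (Real.exp_pos _).le
  push Not at hbm
  have hm0 : (0 : ℝ) ≤ m := Nat.cast_nonneg _
  have hl1 : 1 ≤ l := by
    by_contra hc
    have h1 := Real.exp_le_exp.2 (not_le.1 hc).le
    have h2 := Real.exp_one_lt_d9
    linarith
  obtain ⟨X, hX⟩ : ∃ X, X = 400 * K * l ^ 2 := ⟨_, rfl⟩
  rw [← hX] at c1 c2 c3
  have hK0 : 0 < K := by linarith
  have hl0 : 0 < l := by linarith
  have hA0 : 0 < A := by linarith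
  have hY0 : 0 < Y := by linarith
  have hKl : 1 ≤ K * l := one_le_mul_of_one_le_of_one_le hK hl1
  have hl2 : l ≤ l ^ 2 := by nlinarith
  have hlK : l ^ 2 ≤ K * l ^ 2 := le_mul_of_one_le_left (sq_nonneg l) hK
  have hKlK : K * l ≤ K * l ^ 2 := mul_le_mul_of_nonneg_left hl2 hK0.le
  have hXl : 400 * l ^ 2 ≤ X := by linarith
  have hX1 : 400 ≤ X := by linarith
  have hX0 : 0 < X := by linarith
  have hX1' : 1 ≤ X := by linarith
  obtain ⟨t, ht⟩ : ∃ t, b = t * X ^ 5 * A := ⟨b / (X ^ 5 * A), by field_simp⟩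
  have htY : Y ≤ t := by
    rw [ht] at c2
    have : 0 < X ^ 5 * A := by positivity
    refine le_of_mul_le_mul_right ?_ this
    linarith
  have ht1 : 1 ≤ t := hY.trans htY
  have ht0 : 0 < t := by linarith
  obtain ⟨Db, hDb⟩ : ∃ Db, Db = t * X ^ 4 * A := ⟨_, rfl⟩
  obtain ⟨kb, hkb⟩ : ∃ kb, kb = t ^ 2 * X ^ 6 * A := ⟨_, rfl⟩
  obtain ⟨k₀, hk₀⟩ : ∃ k₀, k₀ = t ^ 3 * X ^ 7 * A := ⟨_, rfl⟩
  obtain ⟨a, ha⟩ : ∃ a, a = 2 * A + 6 := ⟨_, rfl⟩
  have hbD : b = X * Db := by rw [ht, hDb]; ring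
  have hkD : kb = (t * X ^ 2) * Db := by rw [hkb, hDb]; ring
  have hk₀b : k₀ = (t * X) ^ 2 * b := by rw [hk₀, ht]; ring
  have hk₀k : k₀ = t * (X * kb) := by rw [hk₀, hkb]; ring
  have htX : 1 ≤ t * X := one_le_mul_of_one_le_of_one_le ht1 hX1'
  have hAD : 400 * A ≤ Db := by
    rw [hDb]
    refine mul_le_mul_of_nonneg_right ?_ (by linarith)
    have h1 : X ≤ X ^ 4 := le_self_pow₀ hX1' (by norm_num)
    nlinarith
  have haD : a ≤ Db := by linarith
  have hD1 : 1 ≤ Db := by linarith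
  have ha1 : 1 ≤ a := by linarith
  have hDk : 2 * Db ≤ kb := by
    rw [hkD]
    refine mul_le_mul_of_nonneg_right ?_ (by linarith)
    nlinarith
  have hD0 : 0 < Db := by linarith
  have hkb0 : 0 < kb := by linarith
  have ha0 : 0 < a := by linarith
  have hDDl : Db ≤ Db * l := le_mul_of_one_le_right (by linarith) hl1
  have hkkl : kb ≤ kb * l := le_mul_of_one_le_right (by linarith) hl1
  have hDkl : Db * l ≤ kb * l := mul_le_mul_of_nonneg_right (by linarith) (by linarith)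
  have hb1 : 1 ≤ b := by rw [hbD]; exact one_le_mul_of_one_le_of_one_le hX1' hD1
  have hbk₀ : b ≤ k₀ := by
    rw [hk₀b]; exact le_mul_of_one_le_left (by linarith) (one_le_pow₀ htX)
  have hk₀0 : 0 < k₀ := by linarith
  -- the polynomial `q`
  obtain ⟨D, q, hD, hqD, hq0, hq1⟩ := hQ m l (K * (7 * (kb * l))) a hl ha1
    (le_trans (by linarith) (le_mul_of_one_le_left (by linarith) hK))
  have hDD : (D : ℝ) ≤ Db := by
    have h1 : √(K * (7 * (kb * l)) * a) ≤ 8 * (K * l) * (t * X ^ 3 * A) := by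
      refine Real.sqrt_le_iff.2 ⟨by positivity, ?_⟩
      have h2 : K * (7 * (kb * l)) * a ≤ K * (7 * (kb * l)) * (8 * A) :=
        mul_le_mul_of_nonneg_left (by linarith) (by positivity)
      have h3 : K * (7 * (kb * l)) * (8 * A) = 56 * (K * l) * (t * X ^ 3 * A) ^ 2 := by
        rw [hkb]; ring
      have h4 : 56 * (K * l) ≤ (8 * (K * l)) ^ 2 := by nlinarith
      rw [mul_pow]
      exact h2.trans (h3.le.trans (mul_le_mul_of_nonneg_right h4 (sq_nonneg _)))
    have h5 : 10 * l * (8 * (K * l) * (t * X ^ 3 * A)) = (80 * K * l ^ 2) * (t * X ^ 3 * A) := by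
      ring
    have h6 : Db = X * (t * X ^ 3 * A) := by rw [hDb]; ring
    have h7 : 80 * K * l ^ 2 ≤ X := by linarith
    refine hD.trans ((mul_le_mul_of_nonneg_left h1 (by positivity)).trans ?_)
    rw [h5, h6]
    exact mul_le_mul_of_nonneg_right h7 (by positivity)
  -- the polynomial `f`
  have hA2 : Db * l + a ≤ b := by
    have : 2 * l * Db ≤ X * Db := mul_le_mul_of_nonneg_right (by linarith) (by linarith)
    linarith
  obtain ⟨k, f, hk, hfD, hf1, hf2, hf3⟩ := hG m l b k₀ (Db * l + a) hl hb1 hbk₀ (by linarith)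
    (by linarith)
  have hkk : (k : ℝ) ≤ kb := by
    have h1 : √(k₀ / b) = t * X := by
      rw [hk₀b, mul_div_assoc, div_self (by linarith), mul_one, Real.sqrt_sq (by linarith)]
    rw [h1] at hk
    have h2 : 48 * l * (Db * l + a) ≤ X * Db := by
      have h3 : 48 * l * (Db * l + a) ≤ 48 * l * (2 * (Db * l)) :=
        mul_le_mul_of_nonneg_left (by linarith) (by linarith)
      have h4 : 96 * l ^ 2 * Db ≤ X * Db := mul_le_mul_of_nonneg_right (by linarith) (by linarith)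
      linarith
    refine hk.trans ((mul_le_mul_of_nonneg_right h2 (by linarith)).trans (le_of_eq ?_))
    rw [hkD]; ring
  have eD : Real.exp (D * l) ≤ Real.exp (Db * l) :=
    Real.exp_le_exp.2 (mul_le_mul_of_nonneg_right hDD (by linarith))
  have ek : Real.exp (k * l) ≤ Real.exp (kb * l) :=
    Real.exp_le_exp.2 (mul_le_mul_of_nonneg_right hkk (by linarith))
  have hq' : LD D (Real.exp (Db * l)) fun S : Finset (Fin m) => q S.card := LD.mono hqD le_rfl eD
  have hf' : LD k (Real.exp (kb * l)) fun S : Finset (Fin m) => f S.card := LD.mono hfD le_rfl ek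
  have hff := hf'.mul hf'
  rw [← Real.exp_add] at hff
  refine le_trans (op hE hF (f := fun S => f S.card) (q := fun S => q S.card) (b' := b / (64 * l))
    (k₀ := k₀) (k₁ := K * (7 * (kb * l))) (Mf := Real.exp (kb * l + kb * l))
    (Mq := Real.exp (Db * l)) (ε := Real.exp (-a)) (Real.exp_pos _).le
    (Real.exp_le_one_iff.2 (by linarith)) (Real.one_le_exp (by linarith)) (Real.exp_pos _)
    (by simpa using hq0) (fun S hS h => hq1 _ (card_pos.2 (nonempty_iff_ne_empty.2 hS))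
      ((card_le_univ S).trans_eq (by simp)) h) hq'.abs_le (fun S h => ?_)
    (fun S h => hf2 _ (Nat.cast_nonneg _) h) (fun S h h' => hf3 _ h.le h')
    (fun S => (le_abs_self _).trans (hff.abs_le S)) ?_ ?_ ?_) (ha ▸ final A hA)
  · have h1 := hf1 _ (Nat.cast_nonneg S.card) h
    have h2 : f S.card * f S.card ≤ Real.exp (-(Db * l + a)) * 1 := by
      rw [← abs_mul_abs_self]
      exact mul_le_mul h1 (h1.trans (Real.exp_le_one_iff.2 (by linarith))) (abs_nonneg _)
        (Real.exp_pos _).le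
    refine (mul_le_mul_of_nonneg_left h2 (Real.exp_pos _).le).trans (le_of_eq ?_)
    rw [mul_one, ← Real.exp_add]; congr 1; ring
  · have hA₀ : kb * l + kb * l + a ≤ X * kb := by
      have : 3 * l * kb ≤ X * kb := mul_le_mul_of_nonneg_right (by linarith) (by linarith)
      linarith
    have h1 := hprof R (kb * l + kb * l + a) k₀ hR (by linarith) ?_ ?_ ?_
    · refine (mul_le_mul_of_nonneg_left h1 (Real.exp_pos _).le).trans (le_of_eq ?_)
      rw [← Real.exp_add]; congr 1; ring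
    · refine le_trans (mul_le_mul_of_nonneg_right ?_ hR) (c1.trans hbk₀)
      exact le_mul_of_one_le_left (by linarith) (one_le_pow₀ hX1')
    · rw [hk₀k]
      exact mul_le_mul htY hA₀ (by linarith) (by linarith)
    · have h2 : Y ^ (2 * j + 3) * m ≤ t ^ (2 * j + 3) * A := by
        have h3 : 0 < (X ^ 5) ^ (2 * j + 3) * A ^ (2 * j + 2) := by positivity
        refine le_of_mul_le_mul_left ?_ h3
        rw [ht] at c3
        refine le_trans (le_of_eq ?_) (c3.trans (le_of_eq ?_))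
        · rw [show 2 * (j + 1) + 1 = 2 * j + 3 by ring, show 2 * (j + 1) = 2 * j + 2 by ring,
            mul_pow]; ring
        · rw [show 2 * (j + 1) + 1 = 2 * j + 3 by ring, mul_pow, mul_pow]; ring
      have h4 : Y ^ (2 * j + 1) * m ≤ t ^ (2 * j) * k₀ := by
        have h5 : Y ^ (2 * j + 1) ≤ Y ^ (2 * j + 3) := pow_le_pow_right₀ hY (by omega)
        have h6 : t ^ (2 * j) * k₀ = t ^ (2 * j + 3) * A * X ^ 7 := by rw [hk₀]; ring
        rw [h6]
        exact ((mul_le_mul_of_nonneg_right h5 hm0).trans h2).trans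
          (le_mul_of_one_le_right (by positivity) (one_le_pow₀ hX1'))
      have h7 : (kb * l + kb * l + a) ^ (2 * j) ≤ (X * kb) ^ (2 * j) :=
        pow_le_pow_left₀ (by linarith) hA₀ _
      calc Y ^ (2 * j + 1) * (kb * l + kb * l + a) ^ (2 * j) * m
          = Y ^ (2 * j + 1) * m * (kb * l + kb * l + a) ^ (2 * j) := by ring
        _ ≤ t ^ (2 * j) * k₀ * (X * kb) ^ (2 * j) :=
          mul_le_mul h4 h7 (by positivity) (by positivity)
        _ = k₀ ^ (2 * j + 1) := by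
          rw [pow_succ, mul_right_comm, ← mul_pow, ← hk₀k]
  · have h1 := hop_ld (by linarith) hEF hq' (τ := Db * l + a) (b := b / (64 * l)) hR
      (by linarith) ?_
    · refine h1.trans (le_of_eq ?_)
      rw [← Real.exp_add]; congr 1; ring
    · rw [le_div_iff₀ (by positivity)]
      have h2 : X * R ≤ b := le_trans (mul_le_mul_of_nonneg_right
        ((le_self_pow₀ hX1' (by norm_num)).trans (le_mul_of_one_le_right (by positivity) hY)) hR) c1
      have h3 : 128 * (K * l) * R ≤ X * R := by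
        refine mul_le_mul_of_nonneg_right ?_ hR
        linarith
      have h4 : K * (R + (Db * l + a) + D) ≤ K * (R + 3 * (Db * l)) :=
        mul_le_mul_of_nonneg_left (by linarith) (by linarith)
      have h5 : 384 * K * l ^ 2 * Db ≤ X * Db := by
        refine mul_le_mul_of_nonneg_right ?_ (by linarith)
        linarith
      have h6 := mul_le_mul_of_nonneg_right h4 (show 0 ≤ 64 * l by linarith)
      linarith
  · have h1 := hop_ld (by linarith) hFE hff (τ := kb * l + kb * l + (Db * l + 1) + a)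
      (b := K * (7 * (kb * l))) le_rfl (by linarith) ?_
    · rw [lo_zero] at h1
      have h2 : 1 + Real.exp (Db * l) ≤ Real.exp (Db * l + 1) := by
        have h3 := Real.one_le_exp (show 0 ≤ Db * l by linarith)
        have h4 := Real.add_one_le_exp 1
        rw [Real.exp_add]; nlinarith
      refine (mul_le_mul h2 h1 (norm_nonneg _) (Real.exp_pos _).le).trans (le_of_eq ?_)
      rw [← Real.exp_add, ← Real.exp_add]; congr 1; ring
    · refine mul_le_mul_of_nonneg_left ?_ (by linarith)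
      push_cast
      linarith

end Crest.Agent.H2.QA
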