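import Crest.Agent.H2.QA.Basic

/-! Task `succ` of the S0539 plan. -/

set_option autoImplicit false

noncomputable section

namespace Crest.Agent.H2.QA

open scoped Matrix.Norms.L2Operator

namespace SuccX

variable {𝔄 : Type} [CStarAlgebra 𝔄] {m : ℕ} {E : Finset (Fin m) → 𝔄}

theorem two (hE : IsFrame E) {X Y : 𝔄} (hX : ‖X‖ ≤ 1) (hY : ‖Y‖ ≤ 1) (b b' R : ℝ) :
    ‖hi E b * (X * Y) * lo E R‖ ≤ ‖hi E b * X * lo E b'‖ + ‖hi E b' * Y * lo E R‖ := by
  have e : hi E b * (X * Y) * lo E R = hi E b * X * lo E b' * (Y * lo E R) +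
      hi E b * X * (hi E b' * Y * lo E R) := by
    calc hi E b * (X * Y) * lo E R = hi E b * X * (hi E b' + lo E b') * (Y * lo E R) := by
          rw [hi_add_lo hE]; noncomm_ring
      _ = _ := by noncomm_ring
  have h1 : ‖Y * lo E R‖ ≤ 1 :=
    (norm_mul_le _ _).trans (mul_le_one₀ hY (norm_nonneg _) (lo_proj hE R).norm_le)
  have h2 : ‖hi E b * X‖ ≤ 1 :=
    (norm_mul_le _ _).trans (mul_le_one₀ (hi_proj hE b).norm_le (norm_nonneg _) hX)
  rw [e]
  refine (norm_add_le _ _).trans (add_le_add ?_ ?_)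
  · exact (norm_mul_le _ _).trans (mul_le_of_le_one_right (norm_nonneg _) h1)
  · exact (norm_mul_le _ _).trans (mul_le_of_le_one_left (norm_nonneg _) h2)

theorem three (hE : IsFrame E) {X Y Z : 𝔄} {K : ℝ} (hK : 1 ≤ K) (hX : ‖X‖ ≤ 1) (hY : ‖Y‖ ≤ 1)
    (hZ : ‖Z‖ ≤ 1) (h1 : Hop E X K 0) (h2 : Hop E Y K 0) (h3 : Hop E Z K 0) {R τ b : ℝ}
    (hR : 0 ≤ R) (hτ : 1 ≤ τ) (hb : K ^ 3 * (R + 3 * τ) ≤ b) :
    ‖hi E b * (X * Y * Z) * lo E R‖ ≤ 3 * Real.exp (-τ) := by
  have hXY : ‖X * Y‖ ≤ 1 := (norm_mul_le _ _).trans (mul_le_one₀ hX (norm_nonneg _) hY)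
  have hb1 : 0 ≤ K * (R + τ) := by positivity
  have hb2 : 0 ≤ K * (K * (R + τ) + τ) := by positivity
  have a1 := two hE hXY hZ b (K * (R + τ)) R
  have a2 := two hE hX hY b (K * (K * (R + τ) + τ)) (K * (R + τ))
  have a3 := h3 R τ (K * (R + τ)) hR hτ (by rw [add_zero])
  have a4 := h2 (K * (R + τ)) τ (K * (K * (R + τ) + τ)) hb1 hτ (by rw [add_zero])
  have a5 := h1 (K * (K * (R + τ) + τ)) τ b hb2 hτ (by
    refine le_trans ?_ hb
    have k2 : K ≤ K ^ 3 := le_self_pow₀ hK (by norm_num)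
    have k3 : K ^ 2 ≤ K ^ 3 := pow_le_pow_right₀ hK (by norm_num)
    have k4 := mul_le_mul_of_nonneg_right k2 (by linarith : (0 : ℝ) ≤ τ)
    have k5 := mul_le_mul_of_nonneg_right k3 (by linarith : (0 : ℝ) ≤ τ)
    nlinarith)
  linarith

theorem conj_norm {U P : 𝔄} (hU : U ∈ unitary 𝔄) (hP : ‖P‖ ≤ 1) : ‖star U * P * U‖ ≤ 1 := by
  rw [CStarRing.norm_mul_mem_unitary _ hU, CStarRing.norm_mem_unitary_mul _ (Unitary.star_mem hU)]
  exact hP

theorem num (t : ℕ) (τ : ℝ) :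
    (9 : ℝ) ^ t * (3 * Real.exp (-(τ + 3 * t + 2))) ≤ Real.exp (-τ) := by
  have h3 : (9 : ℝ) ≤ Real.exp 3 := by
    have h := Real.exp_one_gt_d9
    have e : Real.exp 3 = Real.exp 1 ^ 3 := by rw [← Real.exp_nat_mul]; norm_num
    rw [e]
    calc (9 : ℝ) ≤ 2.7 ^ 3 := by norm_num
      _ ≤ _ := pow_le_pow_left₀ (by norm_num) (by linarith) 3
  have h2 : (3 : ℝ) ≤ Real.exp 2 := by linarith [Real.add_one_le_exp 2]
  have h4 : (9 : ℝ) ^ t ≤ Real.exp (3 * t) := by
    rw [mul_comm, Real.exp_nat_mul]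
    exact pow_le_pow_left₀ (by norm_num) h3 t
  calc (9 : ℝ) ^ t * (3 * Real.exp (-(τ + 3 * t + 2)))
      ≤ Real.exp (3 * t) * (Real.exp 2 * Real.exp (-(τ + 3 * t + 2))) := by gcongr
    _ = Real.exp (-τ) := by rw [← Real.exp_add, ← Real.exp_add]; congr 1; ring

end SuccX

theorem t_succ : T_succ := by
  intro N s K hK hB U ⟨l, hl, hG, hU⟩ h p T hh hp hT
  have hK3 : K ≤ K ^ 3 := le_self_pow₀ hK (by norm_num)
  cases l with
  | nil =>
    exact (hB U ⟨[], Nat.zero_le _, by simp, hU⟩ h p hh hp).mono (by linarith) (by linarith)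
      le_rfl (Nat.cast_nonneg _)
  | cons G l' =>
    have hD : Depth s l'.prod :=
      ⟨l', by simpa using hl, fun G' h' => hG G' (List.mem_cons_of_mem _ h'), rfl⟩
    have hV : l'.prod ∈ unitary (Mat N) :=
      Submonoid.list_prod_mem _ fun G' h' => (hG G' (List.mem_cons_of_mem _ h')).1
    obtain ⟨V, hVe⟩ : ∃ V, V = l'.prod := ⟨_, rfl⟩
    rw [List.prod_cons, ← hVe] at hU
    rw [← hVe] at hD hV
    obtain ⟨ι, _, c, p₁, p₂, p₃, hps, hc, he⟩ := (hG G (List.mem_cons_self ..)).2.1 p T hp hT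
    have hE := hh.isFrame
    intro R τ b hR hτ hb
    have e : hi (frame h) b * (star U * prodOp p * U) * lo (frame h) R =
        ∑ k, (c k : ℂ) • (hi (frame h) b * ((star V * prodOp (p₁ k) * V) *
          (star V * prodOp (p₂ k) * V) * (star V * prodOp (p₃ k) * V)) * lo (frame h) R) := by
      have e1 : star U * prodOp p * U = star V * (star G * prodOp p * G) * V := by
        rw [hU, star_mul]; noncomm_ring
      rw [e1, he]
      simp only [Finset.mul_sum, Finset.sum_mul, mul_smul_comm, smul_mul_assoc]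
      refine Finset.sum_congr rfl fun k _ => ?_
      congr 3
      calc star V * (prodOp (p₁ k) * prodOp (p₂ k) * prodOp (p₃ k)) * V
          = star V * (prodOp (p₁ k) * (V * star V) * prodOp (p₂ k) * (V * star V) *
            prodOp (p₃ k)) * V := by rw [hV.2, mul_one, mul_one]
        _ = _ := by noncomm_ring
    have ht : (0 : ℝ) ≤ T.card := Nat.cast_nonneg _
    have hk : ∀ k, ‖hi (frame h) b * ((star V * prodOp (p₁ k) * V) *
          (star V * prodOp (p₂ k) * V) * (star V * prodOp (p₃ k) * V)) * lo (frame h) R‖ ≤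
          3 * Real.exp (-(τ + 3 * T.card + 2)) := fun k =>
      SuccX.three hE hK (SuccX.conj_norm hV (hps k).1.proj.norm_le)
        (SuccX.conj_norm hV (hps k).2.1.proj.norm_le)
        (SuccX.conj_norm hV (hps k).2.2.proj.norm_le)
        (hB V hD h _ hh (hps k).1) (hB V hD h _ hh (hps k).2.1) (hB V hD h _ hh (hps k).2.2)
        hR (by linarith) (le_trans (by
          rw [mul_comm 15, mul_assoc]
          exact mul_le_mul_of_nonneg_left (by linarith) (by positivity)) hb)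
    rw [e]
    refine (norm_sum_le _ _).trans (le_trans ?_ (SuccX.num T.card τ))
    refine le_trans ?_ (mul_le_mul_of_nonneg_right hc (by positivity))
    rw [Finset.sum_mul]
    refine Finset.sum_le_sum fun k _ => ?_
    rw [norm_smul, Complex.norm_real, Real.norm_eq_abs]
    exact mul_le_mul_of_nonneg_left (hk k) (abs_nonneg _)

end Crest.Agent.H2.QA
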