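import Crest.Agent.H2.QA.Basic

/-! Task `w` of S0539: the Chebyshev building block. -/

set_option autoImplicit false

noncomputable section

namespace Crest.Agent.H2.QA

open Real Polynomial

namespace WX

theorem sinh_up {u : ℝ} (hu : 0 ≤ u) (n : ℕ) : sinh (n * u) ≤ n * sinh u * cosh (n * u) := by
  induction n with
  | zero => simp
  | succ n ih =>
    have e : ((n + 1 : ℕ) : ℝ) * u = n * u + u := by push_cast; ring
    have h1 : 0 ≤ sinh u := sinh_nonneg_iff.2 hu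
    have h2 : 0 ≤ sinh (n * u) := sinh_nonneg_iff.2 (by positivity)
    have h3 : 1 ≤ cosh u := one_le_cosh u
    have h4 : 1 ≤ cosh (n * u) := one_le_cosh _
    have h5 : (0 : ℝ) ≤ n := Nat.cast_nonneg n
    rw [e, sinh_add, cosh_add]
    push_cast
    have h6 : sinh (n * u) * cosh u ≤ n * sinh u * cosh (n * u) * cosh u :=
      mul_le_mul_of_nonneg_right ih (by linarith)
    have h7 : cosh (n * u) * sinh u ≤ cosh (n * u) * sinh u * cosh u :=
      le_mul_of_one_le_right (by positivity) h3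
    have h8 : 0 ≤ (n + 1) * sinh u * (sinh (n * u) * sinh u) := by positivity
    nlinarith

theorem sinh_low {u : ℝ} (hu : 0 ≤ u) (n : ℕ) : n * sinh u ≤ sinh (n * u) := by
  induction n with
  | zero => simp
  | succ n ih =>
    have e : ((n + 1 : ℕ) : ℝ) * u = n * u + u := by push_cast; ring
    have h1 : 0 ≤ sinh u := sinh_nonneg_iff.2 hu
    have h2 : 0 ≤ sinh (n * u) := sinh_nonneg_iff.2 (by positivity)
    have h3 : 1 ≤ cosh u := one_le_cosh u
    have h4 : 1 ≤ cosh (n * u) := one_le_cosh _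
    rw [e, sinh_add]
    push_cast
    have h6 : sinh (n * u) ≤ sinh (n * u) * cosh u := le_mul_of_one_le_right h2 h3
    have h7 : sinh u ≤ cosh (n * u) * sinh u := le_mul_of_one_le_left h1 h4
    linarith

theorem cosh_diff (u v : ℝ) : cosh (u + v) - cosh (u - v) = 2 * sinh u * sinh v := by
  rw [cosh_add, cosh_sub]; ring

/-- the Chebyshev function -/
def c (n : ℕ) (y : ℝ) : ℝ := (Chebyshev.T ℝ n).eval y

theorem c_cosh (n : ℕ) (a : ℝ) : c n (cosh a) = cosh (n * a) := by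
  simp [c]

theorem c_low (n : ℕ) {y : ℝ} (hy : 1 ≤ y) : 1 + n ^ 2 * (y - 1) ≤ c n y := by
  obtain ⟨a, ha, rfl⟩ : ∃ a, 0 ≤ a ∧ cosh a = y := ⟨arcosh y, arcosh_nonneg hy, cosh_arcosh hy⟩
  rw [c_cosh]
  have h1 := cosh_diff (a / 2) (a / 2)
  have h2 := cosh_diff (n * (a / 2)) (n * (a / 2))
  rw [sub_self, cosh_zero] at h1 h2
  rw [show a / 2 + a / 2 = a by ring] at h1
  rw [show n * (a / 2) + n * (a / 2) = n * a by ring] at h2
  have h3 := sinh_low (show 0 ≤ a / 2 by linarith) n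
  have h4 : 0 ≤ n * sinh (a / 2) := mul_nonneg (Nat.cast_nonneg n) (sinh_nonneg_iff.2 (by linarith))
  have h5 := mul_self_le_mul_self h4 h3
  rw [h1]
  nlinarith

theorem c_diff (n : ℕ) {y y' : ℝ} (hy : 1 ≤ y) (hyy : y ≤ y') :
    c n y ≤ c n y' ∧ c n y' - c n y ≤ n ^ 2 * (y' - y) * c n y' := by
  have hy' : 1 ≤ y' := hy.trans hyy
  obtain ⟨a, a', ha, haa, rfl, rfl⟩ : ∃ a a', 0 ≤ a ∧ a ≤ a' ∧ cosh a = y ∧ cosh a' = y' :=
    ⟨arcosh y, arcosh y', arcosh_nonneg hy,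
      (arcosh_le_arcosh (by linarith) (by linarith)).2 hyy, cosh_arcosh hy, cosh_arcosh hy'⟩
  rw [c_cosh, c_cosh]
  obtain ⟨u, v, hu, hv, rfl, rfl⟩ : ∃ u v : ℝ, 0 ≤ u ∧ 0 ≤ v ∧ a' = u + v ∧ a = u - v :=
    ⟨(a' + a) / 2, (a' - a) / 2, by linarith, by linarith, by ring, by ring⟩
  rw [cosh_diff, mul_add, mul_sub]
  have h1 := cosh_diff (n * u) (n * v)
  have h2 : 0 ≤ sinh (n * u) := sinh_nonneg_iff.2 (by positivity)
  have h3 : 0 ≤ sinh (n * v) := sinh_nonneg_iff.2 (by positivity)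
  have h4 : 0 ≤ sinh u := sinh_nonneg_iff.2 hu
  have h5 : 0 ≤ sinh v := sinh_nonneg_iff.2 hv
  have h6 := mul_le_mul (sinh_up hu n) (sinh_up hv n) h3
    (mul_nonneg (mul_nonneg (Nat.cast_nonneg n) h4) (cosh_pos _).le)
  have h7 : cosh (n * u) * cosh (n * v) ≤ cosh (n * u + n * v) := by
    rw [cosh_add]; nlinarith [mul_nonneg h2 h3]
  have h8 : 0 ≤ (n : ℝ) ^ 2 * (sinh u * sinh v) := by positivity
  have h9 := mul_le_mul_of_nonneg_left h7 h8
  constructor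
  · nlinarith [mul_nonneg h2 h3]
  · rw [h1]
    nlinarith

theorem c_ld {m : ℕ} {μ : ℝ} {y : Finset (Fin m) → ℝ} (hy : LD 1 μ y) (n : ℕ) :
    LD n ((2 * μ + 1) ^ n) fun S => c n (y S) := by
  have hμ := hy.nonneg
  induction n using Nat.twoStepInduction with
  | zero => simpa [c] using LD.const (m := m) 1
  | one => exact (hy.mono le_rfl (by simp; linarith)).congr fun S => by simp [c]
  | more n h0 h1 =>
    have h2 := ((hy.mul h1).smul 2).sub (h0.mono (show n ≤ 1 + (n + 1) by omega) le_rfl)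
    refine (h2.mono (by omega) ?_).congr fun S => ?_
    · have h3 : (0 : ℝ) ≤ (2 * μ + 1) ^ n := by positivity
      rw [abs_two, pow_succ, pow_succ (2 * μ + 1) (n + 1), pow_succ]
      nlinarith [mul_nonneg h3 hμ]
    · simp only [c]
      push_cast
      rw [Chebyshev.T_add_two]
      simp [mul_assoc]

end WX

open WX

theorem t_w : T_w := by
  intro m l b k₀ hl hb hbk
  have hb0 : 0 < b := by linarith
  have hk0 : 0 < k₀ := by linarith
  have hq : 1 ≤ k₀ / b := (one_le_div hb0).2 hbk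
  have hs : 1 ≤ √(k₀ / b) := Real.one_le_sqrt.2 hq
  have hs2 : √(k₀ / b) ^ 2 = k₀ / b := Real.sq_sqrt (by linarith)
  set r := ⌈√(k₀ / b)⌉₊ with hr
  have hr1 : √(k₀ / b) ≤ r := Nat.le_ceil _
  have hr2 : (r : ℝ) ≤ 2 * √(k₀ / b) := by
    have := Nat.ceil_lt_add_one (show 0 ≤ √(k₀ / b) by linarith)
    linarith
  have hr3 : k₀ / b ≤ (r : ℝ) ^ 2 := by
    rw [← hs2]; exact pow_le_pow_left₀ (by linarith) hr1 2
  have hr4 : (r : ℝ) ^ 2 ≤ 4 * (k₀ / b) := by
    rw [← hs2]; nlinarith [Nat.cast_nonneg (α := ℝ) r]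
  have hβ : b / k₀ ≤ 1 := (div_le_one hk0).2 hbk
  have hβ0 : 0 < b / k₀ := div_pos hb0 hk0
  set y₀ : ℝ := 1 + 2 * (b / k₀) with hy₀
  have hy₀1 : 1 ≤ y₀ := by linarith
  have h3 : 3 ≤ c r y₀ := by
    refine le_trans ?_ (c_low r hy₀1)
    have e : k₀ / b * (b / k₀) = 1 := by field_simp
    have := mul_le_mul_of_nonneg_right hr3 hβ0.le
    rw [hy₀]
    nlinarith
  have hc0 : 0 < c r y₀ := by linarith
  have habs : ∀ x, b ≤ x → x ≤ k₀ → |c r (y₀ + -2 / k₀ * x)| ≤ 1 := fun x h1 h2 => by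
    apply Chebyshev.abs_eval_T_real_le_one
    have e : y₀ + -2 / k₀ * x = 1 + 2 * (b / k₀) - 2 * (x / k₀) := by rw [hy₀]; ring
    have h4 : x / k₀ ≤ 1 := (div_le_one hk0).2 h2
    have h5 : b / k₀ ≤ x / k₀ := div_le_div_of_nonneg_right h1 hk0.le
    rw [e, abs_le]
    constructor <;> linarith
  have hmid : ∀ x, 0 ≤ x → x ≤ b → 1 ≤ y₀ + -2 / k₀ * x ∧ y₀ + -2 / k₀ * x ≤ y₀ := fun x h1 h2 => by
    have e : y₀ + -2 / k₀ * x = 1 + 2 * (b / k₀) - 2 * (x / k₀) := by rw [hy₀]; ring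
    have h4 : 0 ≤ x / k₀ := div_nonneg h1 hk0.le
    have h5 : x / k₀ ≤ b / k₀ := div_le_div_of_nonneg_right h2 hk0.le
    rw [e]
    constructor <;> linarith
  have hthird : ∀ x, b ≤ x → x ≤ k₀ → |(c r y₀)⁻¹ * c r (y₀ + -2 / k₀ * x)| ≤ 1 / 3 :=
    fun x h1 h2 => by
      rw [abs_mul, abs_of_pos (inv_pos.2 hc0)]
      have h4 : (c r y₀)⁻¹ ≤ 1 / 3 := by
        rw [one_div]; exact inv_anti₀ (by norm_num) h3
      calc _ ≤ (c r y₀)⁻¹ * 1 := mul_le_mul_of_nonneg_left (habs x h1 h2) (inv_pos.2 hc0).le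
        _ ≤ 1 / 3 := by rwa [mul_one]
  refine ⟨r, fun x => (c r y₀)⁻¹ * c r (y₀ + -2 / k₀ * x), ?_, hr2, ?_, ?_, fun x h1 h2 => ?_,
    hthird, fun x h1 h2 => ?_⟩
  · have : (1 : ℝ) ≤ r := hs.trans hr1
    exact_mod_cast this
  · refine ((c_ld (PD.affine m y₀ (-2 / k₀)) r).smul (c r y₀)⁻¹).mono le_rfl ?_
    have h4 : |(c r y₀)⁻¹| ≤ 1 := by
      rw [abs_of_pos (inv_pos.2 hc0)]
      exact inv_le_one_of_one_le₀ (by linarith)
    have h5 : |y₀| ≤ 3 := by rw [abs_of_pos (by linarith)]; linarith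
    have h6 : |-2 / k₀| ≤ 2 := by
      rw [abs_div, abs_neg, abs_two, abs_of_pos hk0]
      exact div_le_self (by norm_num) (by linarith)
    have h7 : |-2 / k₀| * m ≤ 2 * m := mul_le_mul_of_nonneg_right h6 (Nat.cast_nonneg m)
    have hm : (0 : ℝ) ≤ m := Nat.cast_nonneg m
    calc _ ≤ 1 * (2 * (|y₀| + |-2 / k₀| * m) + 1) ^ r :=
          mul_le_mul_of_nonneg_right h4 (by positivity)
      _ ≤ Real.exp l ^ r := by
          rw [one_mul]
          exact pow_le_pow_left₀ (by positivity) (by linarith) r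
      _ = Real.exp (r * l) := (Real.exp_nat_mul l r).symm
  · simp only [mul_zero, add_zero]
    exact inv_mul_cancel₀ hc0.ne'
  · rcases le_total x b with h | h
    · obtain ⟨h4, h5⟩ := hmid x h1 h
      have h6 := (c_diff r h4 h5).1
      have h7 : 1 ≤ c r (y₀ + -2 / k₀ * x) := Chebyshev.one_le_eval_T_real _ h4
      rw [abs_of_nonneg (mul_nonneg (inv_pos.2 hc0).le (by linarith))]
      rw [inv_mul_le_iff₀ hc0, mul_one]
      exact h6
    · exact (hthird x h h2).trans (by norm_num)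
  · obtain ⟨h4, h5⟩ := hmid x h1 h2
    have h6 := (c_diff r h4 h5).2
    rw [le_inv_mul_iff₀ hc0]
    have e : y₀ - (y₀ + -2 / k₀ * x) = 2 * (x / k₀) := by ring
    rw [e] at h6
    have h7 : (r : ℝ) ^ 2 * (2 * (x / k₀)) ≤ 8 * x / b := by
      have e2 : 8 * x / b = 4 * (k₀ / b) * (2 * (x / k₀)) := by field_simp; ring
      rw [e2]
      exact mul_le_mul_of_nonneg_right hr4 (by positivity)
    have h8 := mul_le_mul_of_nonneg_right h7 hc0.le
    linarith

end Crest.Agent.H2.QA
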